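import Vale.Agent.P092ES.Main
import Vale.Agent.P092ST.Defs

/-!
P092, block ESC (helper11): density of banded contractions, the base form of `Esc`.
-/

set_option linter.all false

open scoped InnerProductSpace ENNReal NNReal Pointwise
open MeasureTheory Filter Topology ContinuousLinearMap

namespace Vale.Agent.P092ES

open Vale.Agent.P092CP
open Vale.Agent.P092.RC (Cm)

variable {G G' K : Type} [Group G] [TopologicalSpace G] [IsTopologicalGroup G]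
  [LocallyCompactSpace G] [SecondCountableTopology G] [T2Space G] [MeasurableSpace G] [BorelSpace G]
  [Group G'] [TopologicalSpace G'] [IsTopologicalGroup G'] [LocallyCompactSpace G']
  [SecondCountableTopology G'] [T2Space G'] [MeasurableSpace G'] [BorelSpace G']
  [NormedAddCommGroup K] [InnerProductSpace ℂ K] [CompleteSpace K] {μ : Measure G}
  [μ.IsHaarMeasure] {μ' : Measure G'} [μ'.IsHaarMeasure] {W : Set (K →L[ℂ] K)}
  {T a x y u : K →L[ℂ] K}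

theorem exists_res' (A : StarSubalgebra ℂ (K →L[ℂ] K)) [IsClosed (A : Set (K →L[ℂ] K))]
    (ha : a ∈ A) : ∃ R ∈ A, (1 + adjoint a * a) * R = 1 ∧ ‖R‖ ≤ 1 ∧ ‖(2 : ℂ) • (a * R)‖ ≤ 1 := by
  obtain ⟨N, hN⟩ := (A.coe_isUnit (a := ⟨_, add_mem (one_mem _) (mul_mem (star_mem ha) ha)⟩)).1
    (CStarAlgebra.isUnit_of_le _ (le_add_of_nonneg_right (star_mul_self_nonneg a))
      isStrictlyPositive_one)
  have h1 : (1 + adjoint a * a) * ((↑N⁻¹ : A) : K →L[ℂ] K) = 1 := by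
    have := congrArg Subtype.val N.mul_inv
    rwa [hN] at this
  have h2 : ∀ ξ, ‖((↑N⁻¹ : A) : K →L[ℂ] K) ξ‖ ^ 2 ≤ ‖ξ‖ ^ 2 ∧
      (2 * ‖a (((↑N⁻¹ : A) : K →L[ℂ] K) ξ)‖) ^ 2 ≤ ‖ξ‖ ^ 2 := fun ξ => by
    obtain ⟨η, hη⟩ : ∃ η, η = ((↑N⁻¹ : A) : K →L[ℂ] K) ξ := ⟨_, rfl⟩
    have h3 : η + adjoint a (a η) = ξ := hη ▸ ap_eq h1 ξ
    have h4 := norm_add_sq (𝕜 := ℂ) η (adjoint a (a η))
    have h5 := (RCLike.re_le_norm _).trans (norm_inner_le_norm (𝕜 := ℂ) η (adjoint a (a η)))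
    rw [adjoint_inner_right, inner_self_eq_norm_sq] at h4 h5
    rw [← hη, ← h3, h4]
    constructor <;> nlinarith [sq_nonneg (‖η‖ - ‖adjoint a (a η)‖), sq_nonneg ‖a η‖,
      sq_nonneg ‖adjoint a (a η)‖]
  refine ⟨_, (↑N⁻¹ : A).2, h1, opNorm_le_bound _ zero_le_one fun ξ => ?_,
    opNorm_le_bound _ zero_le_one fun ξ => ?_⟩
  · rw [one_mul]; exact (abs_le_of_sq_le_sq' (h2 ξ).1 (norm_nonneg _)).2
  · rw [one_mul, smul_apply, norm_smul, Complex.norm_two]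
    exact (abs_le_of_sq_le_sq' (h2 ξ).2 (norm_nonneg _)).2

variable (C : Cpl μ μ' W)

theorem band_add {F F' : Finset C.t.Γ} (h : Band C.t F x) (h' : Band C.t F' y) :
    ∃ F, Band C.t F (x + y) := by
  classical
  exact ⟨F ∪ F', fun γ hγ => by
    rw [C.t.fc_add, h γ fun e => hγ (Finset.mem_union_left _ e),
      h' γ fun e => hγ (Finset.mem_union_right _ e), add_zero]⟩

theorem band_deg {γ : C.t.Γ} (h : C.t.Deg γ x) : Band C.t {γ} x :=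
  fun δ hδ => h.fc_ne fun e => hδ (Finset.mem_singleton.2 e)

theorem band_sum {ι : Type*} (s : Finset ι) {f : ι → K →L[ℂ] K} (h : ∀ i, ∃ γ, C.t.Deg γ (f i)) :
    ∃ F, Band C.t F (∑ i ∈ s, f i) :=
  Finset.sum_induction _ (fun x => ∃ F, Band C.t F x) (fun _ _ ⟨_, a⟩ ⟨_, b⟩ => band_add C a b)
    ⟨_, band_deg C (γ := 1) fun f _ => by rw [zero_mul, mul_zero]⟩
    fun i _ => let ⟨_, a⟩ := h i; ⟨_, band_deg C a⟩

/-- the elements of finite band -/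
def Fb : StarSubalgebra ℂ (K →L[ℂ] K) where
  carrier := {x | C.t.M x ∧ ∃ F, Band C.t F x}
  mul_mem' := fun {x y} ⟨a, F, h⟩ ⟨b, F', h'⟩ => ⟨a.mul b, by
    rw [h.eq C a, h'.eq C b, Finset.sum_mul_sum, ← Finset.sum_product']
    exact band_sum C _ fun p => ⟨_, (C.t.deg_fc a.1).mul (C.t.deg_fc b.1)⟩⟩
  add_mem' := fun ⟨a, _, h⟩ ⟨b, _, h'⟩ => ⟨a.add b, band_add C h h'⟩
  algebraMap_mem' c := by
    rw [Algebra.algebraMap_eq_smul_one]
    exact ⟨C.t.M_one.smul c, _, band_deg C (Side.deg_one.smul c)⟩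
  star_mem' := fun {x} ⟨a, F, h⟩ => ⟨C.M_adj a, by
    rw [h.eq C a, star_sum]
    exact band_sum C _ fun γ => ⟨_, (C.t.deg_fc a.1).adj⟩⟩

/-- **banded contractions are dense** in the unitary group of `M` -/
theorem kap (hu : C.t.M u) (h1 : u ∈ unitary (K →L[ℂ] K)) {ε : ℝ} (hε : 0 < ε) :
    ∃ F x, C.t.M x ∧ ‖x‖ ≤ 1 ∧ Band C.t F x ∧ ‖(x - u) C.t.Ω‖ ≤ ε := by
  obtain ⟨F, hF⟩ := (Metric.tendsto_nhds.1 (C.t.hasSum_fc u) (ε / 4) (by positivity)).exists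
  obtain ⟨a, ha⟩ : ∃ a, a = ∑ γ ∈ F, C.t.fc γ u := ⟨_, rfl⟩
  have h2 : a ∈ Fb C := ha ▸ ⟨Side.M.sum _ fun _ _ => C.t.M_fc hu,
    band_sum C _ fun γ => ⟨_, C.t.deg_fc hu.1⟩⟩
  have h3 : ‖(a - u) C.t.Ω‖ ≤ ε / 4 := by
    rw [sub_apply, ha, sum_apply, ← dist_eq_norm]; exact hF.le
  have := (Fb C).isClosed_topologicalClosure
  obtain ⟨R, r1, r2, r3, r4⟩ := exists_res' _ ((Fb C).le_topologicalClosure h2)
  have r5 : C.t.M R := by
    obtain ⟨s, hs, hl⟩ := mem_closure_iff_seq_limit.1 r1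
    exact Side.M.of_weak (Eventually.of_forall fun n => (hs n).1) fun ξ η =>
      tendsto_const_nhds.inner (((apply ℂ K ξ).continuous.tendsto _).comp hl)
  obtain ⟨x, hx, h4⟩ := Metric.mem_closure_iff.1 (SMulMemClass.smul_mem (2 : ℂ)
    (mul_mem ((Fb C).le_topologicalClosure h2) r1)) (ε / 4) (by positivity)
  rw [dist_comm, dist_eq_norm] at h4
  have h5 : ‖x‖ ≤ 1 + ε / 4 := (norm_le_insert' x _).trans (add_le_add r4 h4.le)
  have h6 := norm_scale (by positivity) h5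
  obtain ⟨hM, F', hF'⟩ := hx
  refine ⟨F', _, hM.smul _, h6, hF'.smul _, ?_⟩
  have h7 : (2 : ℂ) • (a * R) - u = (a - u) * R - u * (adjoint (a - u) * (a * R)) := by
    conv_lhs => rw [← mul_one u, ← r2]
    rw [map_sub, sub_mul, sub_mul, mul_sub, ← mul_assoc u (adjoint u), show u * adjoint u = 1
      from h1.2, two_smul]
    noncomm_ring
  have h8 : ‖((2 : ℂ) • (a * R) - u) C.t.Ω‖ ≤ ε / 4 + ε / 4 := by
    have hd := h2.1.sub hu
    rw [h7, sub_apply, mul_ap, mul_ap, mul_ap]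
    refine (norm_sub_le _ _).trans (add_le_add ((C.norm_mul_Ω hd r5).trans ?_) ?_)
    · exact (mul_le_of_le_one_left (norm_nonneg _) r3).trans h3
    · rw [norm_map_of_mem_unitary h1]
      refine (C.norm_mul_Ω (C.M_adj hd) (h2.1.mul r5)).trans ?_
      rw [C.norm_adj_Ω hd]
      refine (mul_le_of_le_one_left (norm_nonneg _) (le_trans ?_ r4)).trans h3
      rw [norm_smul, Complex.norm_two]
      linarith [norm_nonneg (a * R)]
  have h9 : (((1 + ε / 4)⁻¹ : ℝ) : ℂ) • x - u = -(((ε / 4 : ℝ) : ℂ) • (((1 + ε / 4)⁻¹ : ℝ) : ℂ) • x) +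
      (x - (2 : ℂ) • (a * R)) + ((2 : ℂ) • (a * R) - u) := by
    rw [add_assoc, sub_add_sub_cancel, ← add_sub_assoc, sub_left_inj, eq_neg_add_iff_add_eq,
      smul_smul, ← add_smul, ← Complex.ofReal_mul, ← Complex.ofReal_add, ← add_one_mul, add_comm,
      mul_inv_cancel₀ (by positivity), Complex.ofReal_one, one_smul]
  rw [h9, add_apply]
  refine (norm_add_le _ _).trans (le_of_le_of_eq (add_le_add ((C.t.norm_Ω_le _).trans
    ((norm_add_le _ _).trans (add_le_add ?_ h4.le))) h8) (show ε / 4 + ε / 4 + _ = _ by ring))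
  rw [norm_neg, norm_smul, Complex.norm_of_nonneg (by positivity)]
  exact mul_le_of_le_one_right (by positivity) h6

/-- **escape** from `NIM`, finite bands -/
theorem esc_fin (h : P092ST.NIM G') : ∃ η > 0, ∃ S F, ∀ v, ¬Bad C η S F v :=
  let ⟨_, _, _, _, hL, hf, h1⟩ := h
  esc C hL (fun j => let ⟨_, hc⟩ := (hf j).2.1; Bd.ofReal (hf j).1 hc)
    (fun j s ε hε => let ⟨Q, hQ, e⟩ := (hf j).2.2 {s} isCompact_singleton ε hε
      ⟨Q, hQ, fun x hx => e x hx s rfl⟩) h1 fun g _ => kap C (C.u_M g) (C.u_unit g)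

/-- band `J` for the length `len` -/
def BandL (S : Side μ' W) (len : S.Γ → ℝ) (J : ℝ) (T : K →L[ℂ] K) : Prop :=
  ∀ X Y : Set S.Γ, (∀ a ∈ X, ∀ b ∈ Y, J < len (a * b⁻¹)) →
    S.P (⋃ γ ∈ X, S.cell γ) * T * S.P (⋃ γ ∈ Y, S.cell γ) = 0

theorem meas_cells (S : Side μ' W) (X : Set S.Γ) : MeasurableSet (⋃ γ ∈ X, S.cell γ) :=
  have := S.cnt
  MeasurableSet.biUnion (Set.to_countable X) fun γ _ => S.meas_cell γ

theorem Band.bandL {F : Finset C.t.Γ} (h : Band C.t F x) (hx : C.t.M x) {len : C.t.Γ → ℝ} {J : ℝ}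
    (hJ : ∀ γ ∈ F, len γ ≤ J) : BandL C.t len J x := fun X Y e => by
  rw [h.eq C hx, Finset.mul_sum, Finset.sum_mul]
  refine Finset.sum_eq_zero fun γ hγ => ?_
  rw [mul_assoc, (C.t.deg_fc hx.1).P (meas_cells _ Y), ← mul_assoc, C.t.P_mul (meas_cells _ X)
    (measurable_mul_const _ (meas_cells _ Y)), Set.eq_empty_of_forall_notMem (s := _ ∩ _)
      fun z hz => ?_, Side.P_empty, zero_mul]
  obtain ⟨a, ha, h1⟩ := Set.mem_iUnion₂.1 hz.1
  obtain ⟨b, hb, h2⟩ := Set.mem_iUnion₂.1 hz.2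
  have h3 : a = γ * b := (C.t.fund z).unique h1 (by simpa [Side.cell, mul_assoc] using h2)
  exact (e a ha b hb).not_ge (by rw [h3, mul_inv_cancel_right]; exact hJ γ hγ)

theorem BandL.mul_V {len : C.t.Γ → ℝ} {J : ℝ} (h : BandL C.t len J x) (g : G) :
    BandL C.t len J (x * C.V g) := fun X Y e => by
  rw [← mul_assoc, mul_assoc _ (C.V g), Side.P, Side.P, C.V_m g (Bd.ind (meas_cells _ Y)),
    ← mul_assoc, ← Side.P, ← Side.P, h X Y e, zero_mul]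

/-- **ESC, base form** (any length function on the lattice) -/
theorem esc_base (h : P092ST.NIM G') (len : C.t.Γ → ℝ) :
    ∃ (η : ℝ) (S : Finset G) (R : ℝ), 0 < η ∧ 0 ≤ R ∧ ∀ v, C.t.M v → star v = v →
    ‖v C.t.Ω‖ ≤ 1 →
    (∀ x, C.t.M x → BandL C.t len R x → ‖x‖ ≤ 1 →
      ‖C.t.τ (v * x * v) - (‖v C.t.Ω‖ ^ 2 : ℝ) * C.t.τ x‖ ≤ η) →
    (∀ x, C.t.M x → ‖x‖ ≤ 1 → ‖C.t.τ (x * v)‖ ≤ η) →
    (∀ g ∈ S, ∀ x, C.t.M x → BandL C.t len R (x * C.V g) → ‖x‖ ≤ 1 →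
      ‖(x * C.V g * v - v * (x * C.V g)) C.t.Ω‖ ≤ η + 10 * ‖(x * C.V g - C.s.π g) C.t.Ω‖) →
    ‖v C.t.Ω‖ < 1 / 2 := by
  obtain ⟨η, hη, S, F, H⟩ := esc_fin C h
  have hJ : ∀ γ ∈ F, len γ ≤ ∑ γ ∈ F, |len γ| := fun γ hγ => (le_abs_self _).trans
    (Finset.single_le_sum (f := fun γ => |len γ|) (fun _ _ => abs_nonneg _) hγ)
  refine ⟨η, S, _, hη, Finset.sum_nonneg fun _ _ => abs_nonneg _, fun v h1 h2 h3 h4 h5 h6 =>
    not_le.1 fun h7 => H v ⟨h1, h2, h7, h3, fun x a _ b c => h4 x a (c.bandL C a hJ) b,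
      fun x a b => h5 _ (C.M_adj a) ((LinearIsometryEquiv.norm_map _ _).trans_le b),
      fun g hg x a b c => (h6 g hg x a ((c.bandL C a hJ).mul_V C g) b).trans_eq ?_⟩⟩
  rw [← C.u_V, ← sub_mul, mul_ap, C.V_Ω]

end Vale.Agent.P092ES
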