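import Vale.Agent.P092ES.Base

/-!
P092, block ESC (helper11): transport of `Gap` and `Esc` to the ambient algebra.
-/

set_option linter.all false

open scoped InnerProductSpace ENNReal NNReal Pointwise
open MeasureTheory Filter Topology ContinuousLinearMap

namespace Vale.Agent.P092ES

open Vale.Agent.P092CP Vale.Agent.P092ST
open Vale.Agent.P092.RC (Cm)

variable {G G' K 𝒦 : Type} [Group G] [TopologicalSpace G] [IsTopologicalGroup G]
  [LocallyCompactSpace G] [SecondCountableTopology G] [T2Space G] [MeasurableSpace G] [BorelSpace G]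
  [Group G'] [TopologicalSpace G'] [IsTopologicalGroup G'] [LocallyCompactSpace G']
  [SecondCountableTopology G'] [T2Space G'] [MeasurableSpace G'] [BorelSpace G']
  [NormedAddCommGroup K] [InnerProductSpace ℂ K] [CompleteSpace K] {μ : Measure G}
  [μ.IsHaarMeasure] {μ' : Measure G'} [μ'.IsHaarMeasure] {W : Set (K →L[ℂ] K)}
  [NormedAddCommGroup 𝒦] [InnerProductSpace ℂ 𝒦] [CompleteSpace 𝒦]
  {C : Cpl μ μ' W} {A : Amb G C.t.Γ 𝒦} {x y : K →L[ℂ] K}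

/-- the corner of the ambient algebra is the coupling -/
structure Cn (C : Cpl μ μ' W) (A : Amb G C.t.Γ 𝒦) (j : K →L[ℂ] 𝒦) : Prop where
  iso : ∀ ξ, adjoint j (j ξ) = ξ
  Ω : A.Ω 0 = j C.t.Ω
  V : ∀ g, A.V g = j ∘L C.s.π g ∘L adjoint j
  down : ∀ T, Cm A.𝓦 T → C.t.M (adjoint j ∘L T ∘L j)
  up : ∀ g x, C.t.M x → A.Deg g (j ∘L (x * C.V g) ∘L adjoint j)
  Pj : ∀ X ξ, A.Pj X (j ξ) = j (C.t.P (⋃ γ ∈ X, C.t.cell γ) ξ)

namespace Cn

variable {j : K →L[ℂ] 𝒦} (h : Cn C A j)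
include h

theorem norm_j (ξ : K) : ‖j ξ‖ = ‖ξ‖ := by
  rw [norm_eq_sqrt_re_inner (𝕜 := ℂ), ← adjoint_inner_right, h.iso, ← norm_eq_sqrt_re_inner]

theorem norm_up (hx : ‖x‖ ≤ 1) : ‖j ∘L x ∘L adjoint j‖ ≤ 1 := by
  have h1 : ‖adjoint j‖ ≤ 1 := (LinearIsometryEquiv.norm_map _ _).trans_le
    (opNorm_le_bound _ zero_le_one fun ξ => by rw [h.norm_j, one_mul])
  exact opNorm_le_bound _ zero_le_one fun ξ => (h.norm_j _).trans_le
    ((x.le_of_opNorm_le hx _).trans (by rw [one_mul]; exact (adjoint j).le_of_opNorm_le h1 ξ))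

theorem cor (x : K →L[ℂ] K) : A.Cor (j ∘L x ∘L adjoint j) :=
  ContinuousLinearMap.ext fun ξ => by simp [h.V, h.iso]

theorem adj_Pj (X : Set C.t.Γ) (ξ : 𝒦) :
    adjoint j (A.Pj X ξ) = C.t.P (⋃ γ ∈ X, C.t.cell γ) (adjoint j ξ) :=
  ext_inner_left ℂ fun η => by
    rw [adjoint_inner_right, ← A.Pj_star X, star_eq_adjoint, adjoint_inner_right, h.Pj,
      ← adjoint_inner_right j, ← adjoint_inner_right, C.t.adjoint_P (meas_cells _ X)]

theorem band {J : ℝ} (hx : BandL C.t A.len J x) : A.Band J (j ∘L x ∘L adjoint j) := fun X Y e =>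
  ContinuousLinearMap.ext fun ξ => by
    change A.Pj X (j (x (adjoint j (A.Pj Y ξ)))) = 0
    rw [h.adj_Pj, h.Pj]
    exact (congrArg j (ap_eq (hx X Y e) _)).trans (map_zero j)

theorem norm_xV (g : G) (hx : ‖x‖ ≤ 1) : ‖x * C.V g‖ ≤ 1 :=
  opNorm_le_bound _ zero_le_one fun ξ => C.norm_V g ξ ▸ x.le_of_opNorm_le hx _

theorem esc (hN : NIM G') : A.Esc := by
  obtain ⟨η, S, R, h1, h2, H⟩ := esc_base C hN A.len
  refine ⟨η, S, R, h1, h2, fun v v1 v2 v3 v4 a b c => ?_⟩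
  obtain ⟨w, hw⟩ : ∃ w, w = adjoint j ∘L v ∘L j := ⟨_, rfl⟩
  have e : v = j ∘L w ∘L adjoint j := ContinuousLinearMap.ext fun ξ => by
    conv_lhs => rw [← v2]
    simp [h.V, hw]
  have u1 : ∀ x, C.t.M x → A.Deg 1 (j ∘L x ∘L adjoint j) := fun x hx => by
    simpa only [map_one, mul_one] using h.up 1 x hx
  have e1 : ‖v (A.Ω 0)‖ = ‖w C.t.Ω‖ := by rw [← h.norm_j]; simp [e, h.Ω, h.iso]
  have e2 : ∀ x : K →L[ℂ] K, A.τ (j ∘L x ∘L adjoint j) = C.t.τ x := fun x => by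
    simp [Amb.τ, Side.τ, h.Ω, h.iso, ← adjoint_inner_right j]
  have e3 : ∀ x y : K →L[ℂ] K, (j ∘L x ∘L adjoint j) * (j ∘L y ∘L adjoint j) =
      j ∘L (x * y) ∘L adjoint j := fun x y => ContinuousLinearMap.ext fun ξ => by simp [h.iso]
  rw [e1] at v4 a ⊢
  refine H w (hw ▸ h.down v (by simpa [Amb.Deg] using v1)) ?_ v4 (fun x x1 x2 x3 => ?_)
    (fun x x1 x3 => ?_) fun g hg x x1 x2 x3 => ?_
  · rw [star_eq_adjoint] at v3 ⊢
    rw [hw, adjoint_comp, adjoint_comp, adjoint_adjoint, v3, comp_assoc]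
  · simpa only [e, e3, e2] using a _ (u1 x x1) (h.cor x) (h.band x2) (h.norm_up x3)
  · simpa only [e, e3, e2] using b _ (u1 x x1) (h.cor x) (h.norm_up x3)
  · have h3 := c g hg _ (h.up g x x1) (h.cor _) (h.band x2) (h.norm_up (h.norm_xV g x3))
    rw [e, e3, e3, h.V, h.Ω] at h3
    simpa only [sub_apply, comp_apply, h.iso, ← map_sub, h.norm_j] using h3

theorem gap {p : ℕ} {F : Fin p → G} {θ : ℝ} (hθ : θ < 1) (H : ∀ x, C.t.M x → C.t.τ x = 0 →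
    ‖(p : ℂ)⁻¹ • ∑ i, (C.s.π (F i) * x * C.s.π (F i)⁻¹) C.t.Ω‖ ≤ θ * ‖x C.t.Ω‖) : A.Gap F := by
  refine ⟨θ, hθ, fun v v1 v2 v3 => ?_⟩
  obtain ⟨w, hw⟩ : ∃ w, w = adjoint j ∘L v ∘L j := ⟨_, rfl⟩
  have e : v = j ∘L w ∘L adjoint j := ContinuousLinearMap.ext fun ξ => by
    conv_lhs => rw [← v2]
    simp [h.V, hw]
  have h1 := H w (hw ▸ h.down v (by simpa [Amb.Deg] using v1)) (by
    rw [← v3]; simp [e, Amb.τ, Side.τ, h.Ω, h.iso, ← adjoint_inner_right j])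
  rw [← h.norm_j, ← h.norm_j (w _)] at h1
  simpa only [e, h.V, h.Ω, smul_apply, sum_apply, mul_ap, comp_apply, h.iso, map_smul, map_sum,
    mul_apply] using h1

end Cn

end Vale.Agent.P092ES
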