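import Vale.Agent.P092ES.Est

/-!
P092, block ESC (helper11): uniqueness of the mean of an invariant right multiplier.
-/

set_option linter.all false

open scoped InnerProductSpace ENNReal NNReal Pointwise
open MeasureTheory Filter Topology ContinuousLinearMap

namespace Vale.Agent.P092ES

open Vale.Agent.P092CP
open Vale.Agent.P092.RC (Cm)

variable {G G' K : Type} [Group G] [TopologicalSpace G] [IsTopologicalGroup G]
  [LocallyCompactSpace G] [SecondCountableTopology G] [T2Space G] [MeasurableSpace G] [BorelSpace G]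
  [Group G'] [TopologicalSpace G'] [IsTopologicalGroup G'] [LocallyCompactSpace G']
  [SecondCountableTopology G'] [T2Space G'] [MeasurableSpace G'] [BorelSpace G']
  [NormedAddCommGroup K] [InnerProductSpace ℂ K] [CompleteSpace K] {μ : Measure G}
  [μ.IsHaarMeasure] {μ' : Measure G'} [μ'.IsHaarMeasure] {W : Set (K →L[ℂ] K)}
  {T T' : K →L[ℂ] K} {C : Cpl μ μ' W} {X : C.t.LB →L[ℂ] C.t.LB}

/-- total mass one for the source -/
def One (C : Cpl μ μ' W) (T : K →L[ℂ] K) : Prop :=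
  T ∈ C.t.HS ∧ ∀ ξ, ∫⁻ g, ‖T (C.s.π g ξ)‖ₑ ^ 2 ∂μ = ‖ξ‖ₑ ^ 2

theorem One.int (h : One C T) (ξ η : C.t.LB) :
    ∫ g, ⟪Rm C.t.HS C.t.vB (adjoint T) (C.admσ.rep g ξ),
      Rm C.t.HS C.t.vB (adjoint T) (C.admσ.rep g η)⟫_ℂ ∂μ = ⟪ξ, η⟫_ℂ := by
  refine sqi_of_dense C.t.gnsB (T := fun g => Rm C.t.HS C.t.vB (adjoint T) * C.admσ.rep g)
    (fun ξ => ((Rm C.t.HS C.t.vB (adjoint T)).continuous.comp
      (C.admσ.cont_rep ξ)).aestronglyMeasurable) (fun d hd => ?_) ξ η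
  have h1 := C.adj_cm h.1.1
  have h2 : ∀ g, ‖(Rm C.t.HS C.t.vB (adjoint T) * C.admσ.rep g) (C.t.vB d)‖ₑ ^ 2 =
      ∫⁻ k, ‖T (C.s.π g (adjoint d (C.t.π k C.t.Ω)))‖ₑ ^ 2 ∂μ' := fun g => by
    have h3 := C.admσ.memD g d hd
    rw [mul_ap, C.admσ.rep_v g hd, C.bimB.R_v h1 h3, C.t.enorm_vB (C.bimB.mulD' h3 h1),
      ← C.tr_adj _ (cm_mul h3.1 h1), adj_mul, adjoint_adjoint, C.s.conj_adj,
      ← C.Tr_mul_s (cm_mul h.1.1 (C.s.conj _ (C.adj_cm hd.1) g)) g, mul_assoc, mul_assoc,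
      pi_inv_mul, mul_one]
    rfl
  have h4 : Continuous fun p : G × K => C.s.π p.1 p.2 :=
    continuous_prod_of_continuous_lipschitzWith' _ 1
      (fun g => LipschitzWith.of_dist_le_mul fun a b => by
        simp only [dist_eq_norm, ← map_sub, C.s.norm_π, NNReal.coe_one, one_mul, le_refl])
      fun ξ => C.s.cont ξ
  simp only [h2]
  rw [lintegral_lintegral_swap ((T.continuous.comp (h4.comp (continuous_fst.prodMk
    (((adjoint d).continuous.comp (C.t.cont C.t.Ω)).comp continuous_snd)))).enorm.measurable.pow_const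
      2).aemeasurable, C.t.enorm_vB hd, ← C.tr_adj d hd.1]
  simp only [h.2]
  rfl

section abs

variable {H : Type} [NormedAddCommGroup H] [InnerProductSpace ℂ H] [CompleteSpace H]
  {A : Set (K →L[ℂ] K)} {D : Submodule ℂ (K →L[ℂ] K)} {v : (K →L[ℂ] K) → H}
  {ρ : G →* (K →L[ℂ] K)} (h : Adm A D v ρ) (hD : ∀ d ∈ D, d ∈ A) {X : H →L[ℂ] H}
include hD

theorem avg1 (hT : T ∈ D) (h' : T' ∈ D) (e : ∀ ξ η, ∫ g, ⟪Rm D v (adjoint T) (h.rep g ξ),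
      Rm D v (adjoint T) (h.rep g η)⟫_ℂ ∂μ = ⟪ξ, η⟫_ℂ)
    (hL : ∀ b ∈ A, Lm D v b * X = X * Lm D v b) (hσ : ∀ g, h.rep g * X = X * h.rep g) :
    ⟪v T', X (v T')⟫_ℂ = ∫ g, ⟪v (adjoint T * T), X (h.rep g (v (adjoint T' * T')))⟫_ℂ ∂μ := by
  rw [← e]
  refine integral_congr_ae (Eventually.of_forall fun g => ?_)
  have h1 := h.bim.adjA _ (hD _ hT)
  have h3 := h.memD g _ h'
  have h4 := h.bim.mulD _ h1 _ hT
  have h5 := h.bim.adjA _ (hD _ h3)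
  beta_reduce
  rw [← adjoint_inner_left, h.bim.adjoint_R h1, adjoint_adjoint, h.rep_v g h',
    h.bim.R_v h1 h3, h.bim.R_v (hD _ hT) (h.bim.mulD' h3 h1), mul_assoc, ← h.bim.L_v (hD _ h3) h4,
    ← adjoint_inner_right, h.bim.adjoint_L (hD _ h3), ← mul_ap (h.rep g), hσ, ← mul_ap,
    ← mul_assoc, hL _ h5, mul_ap, mul_ap, h.rep_v g h', h.bim.L_v h5 h3,
    h.rep_v g (h.bim.mulD _ (h.bim.adjA _ (hD _ h')) _ h'), adj_mul, adj_mul, h.adj, h.adj, inv_inv]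
  simp only [mul_assoc]
  rw [← mul_assoc (ρ g⁻¹), pi_inv_mul, one_mul]

theorem avg2 [μ.IsInvInvariant] (hT : T ∈ D) (h' : T' ∈ D)
    (e : ∀ ξ η, ∫ g, ⟪Rm D v (adjoint T) (h.rep g ξ),
      Rm D v (adjoint T) (h.rep g η)⟫_ℂ ∂μ = ⟪ξ, η⟫_ℂ)
    (e' : ∀ ξ η, ∫ g, ⟪Rm D v (adjoint T') (h.rep g ξ),
      Rm D v (adjoint T') (h.rep g η)⟫_ℂ ∂μ = ⟪ξ, η⟫_ℂ)
    (hL : ∀ b ∈ A, Lm D v b * X = X * Lm D v b) (hσ : ∀ g, h.rep g * X = X * h.rep g) :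
    ⟪v T', X (v T')⟫_ℂ = ⟪v T, X (v T)⟫_ℂ := by
  have h1 := avg1 h hD (X := adjoint X) h' hT e' (fun b hb => by
    have e := congrArg adjoint (hL _ (h.bim.adjA b hb))
    rw [adj_mul, adj_mul, h.bim.adjoint_L (h.bim.adjA b hb), adjoint_adjoint] at e
    exact e.symm) fun g => by
    have e := congrArg adjoint (hσ g⁻¹)
    rw [adj_mul, adj_mul, h.adj_rep, inv_inv] at e
    exact e.symm
  rw [avg1 h hD hT h' e hL hσ, ← inner_conj_symm (v T), ← adjoint_inner_right, h1, ← integral_conj,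
    ← integral_inv_eq_self]
  refine integral_congr_ae (Eventually.of_forall fun g => ?_)
  beta_reduce
  rw [inner_conj_symm, adjoint_inner_left, ← mul_ap X, ← hσ, mul_ap, ← h.adj_rep,
    adjoint_inner_right]

end abs

theorem One.avg (h : One C T) (h' : One C T')
    (hL : ∀ b, Cm W b → Lm C.t.HS C.t.vB b * X = X * Lm C.t.HS C.t.vB b)
    (hσ : ∀ g, C.admσ.rep g * X = X * C.admσ.rep g) :
    ⟪C.t.vB T', X (C.t.vB T')⟫_ℂ = ⟪C.t.vB T, X (C.t.vB T)⟫_ℂ :=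
  have := C.s.inv
  avg2 C.admσ (fun _ hd => hd.1) h.1 h'.1 h.int h'.int hL hσ

theorem One.conj (h : One C T) (k : G') : One C (C.t.π k * T * C.t.π k⁻¹) :=
  ⟨C.admβ.memD k T h.1, fun ξ => by
    rw [← C.t.enorm_π k⁻¹ ξ, ← h.2]
    exact lintegral_congr fun g => by
      rw [mul_ap, mul_ap, C.t.enorm_π, ← mul_ap (C.t.π k⁻¹), ← C.comm, mul_ap]⟩

theorem exists_one (C : Cpl μ μ' W) : ∃ T, One C T ∧ C.t.vB T ≠ 0 := by
  have h1 := cm_smul (‖C.s.ω‖ : ℂ) (C.s.cm_P C.s.mD)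
  have h2 : ∀ ξ, ∫⁻ g, ‖((‖C.s.ω‖ : ℂ) • C.s.P C.s.D) (C.s.π g ξ)‖ₑ ^ 2 ∂μ = ‖ξ‖ₑ ^ 2 := fun ξ => by
    simp only [smul_apply, enorm_smul, mul_pow]
    rw [lintegral_const_mul' _ _ (by finiteness), C.s.lint_P C.s.mD, ← mul_assoc, mul_comm _ (μ _),
      ← ofReal_norm, Complex.norm_real, norm_norm, ofReal_norm, C.s.vol_mul, one_mul]
  have h3 : C.s.Tr ((‖C.s.ω‖ : ℂ) • C.s.P C.s.D) = 1 := by rw [Side.Tr, h2, C.s.enorm_Ω, one_pow]
  have h4 : _ ∈ C.t.HS := ⟨h1, (C.Tr_fin h1).1 (h3 ▸ ENNReal.one_ne_top)⟩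
  refine ⟨_, ⟨h4, h2⟩, fun e => ?_⟩
  rw [C.bimB.inj _ h4 e, Side.Tr_zero] at h3
  exact zero_ne_one h3

end Vale.Agent.P092ES
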