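import Vale.Agent.P092ES.Loc

/-!
P092, block ESC (helper11): asymptotic isometry and escape of mass.
-/

set_option linter.all false

open scoped InnerProductSpace ENNReal NNReal Pointwise
open MeasureTheory Filter Topology ContinuousLinearMap

namespace Vale.Agent.P092ES

open Vale.Agent.P092CP
open Vale.Agent.P092.RC (Cm)

variable {G G' K : Type} [Group G] [TopologicalSpace G] [IsTopologicalGroup G]
  [LocallyCompactSpace G] [SecondCountableTopology G] [T2Space G] [MeasurableSpace G] [BorelSpace G]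
  [Group G'] [TopologicalSpace G'] [IsTopologicalGroup G'] [LocallyCompactSpace G']
  [SecondCountableTopology G'] [T2Space G'] [MeasurableSpace G'] [BorelSpace G']
  [NormedAddCommGroup K] [InnerProductSpace ℂ K] [CompleteSpace K] {μ : Measure G}
  [μ.IsHaarMeasure] {μ' : Measure G'} [μ'.IsHaarMeasure] {W : Set (K →L[ℂ] K)}
  {T T' a x y v : K →L[ℂ] K} {L L' : Set G'} {c c' : ℝ}

/-- a rough, almost central element with the local statistics of the trace -/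
structure Bad (C : Cpl μ μ' W) (η : ℝ) (S : Finset G) (F : Finset C.t.Γ) (v : K →L[ℂ] K) :
    Prop where
  mem : C.t.M v
  sa : adjoint v = v
  lo : 1 / 2 ≤ ‖v C.t.Ω‖
  hi : ‖v C.t.Ω‖ ≤ 1
  sta : ∀ x, C.t.M x → 0 ≤ x → ‖x‖ ≤ 1 → Band C.t F x →
    ‖C.t.τ (v * x * v) - (‖v C.t.Ω‖ ^ 2 : ℝ) * C.t.τ x‖ ≤ η
  rgh : ∀ x, C.t.M x → ‖x‖ ≤ 1 → ‖C.t.τ (adjoint x * v)‖ ≤ η
  cen : ∀ g ∈ S, ∀ x, C.t.M x → ‖x‖ ≤ 1 → Band C.t F x →
    ‖(x * C.V g * v - v * (x * C.V g)) C.t.Ω‖ ≤ η + 10 * ‖(x - C.u g) C.t.Ω‖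

variable {C : Cpl μ μ' W} {η m : ℝ} {S : Finset G} {F : Finset C.t.Γ}

theorem norm_scale {r : ℝ} (hr : 0 < r) (h : ‖x‖ ≤ r) : ‖((r⁻¹ : ℝ) : ℂ) • x‖ ≤ 1 := by
  rw [norm_smul, Complex.norm_of_nonneg (by positivity), inv_mul_le_one₀ hr]; exact h

theorem Bad.iso (h : Bad C η S F v) (hT : Cm W T) (hL : IsCompact L) (e : T * C.t.P L = T)
    (hF : Band C.t F (C.t.E T T)) {r : ℝ} (hr : 0 < r) (h1 : ‖T‖ ^ 2 * μ'.real L ≤ r) :
    |‖C.t.vB (T * v)‖ ^ 2 - ‖v C.t.Ω‖ ^ 2 * ‖C.t.vB T‖ ^ 2| ≤ η * r := by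
  have h2 := si_loc hL e
  have h3 := h.sta (((r⁻¹ : ℝ) : ℂ) • C.t.E T T) ((h2.M_E h2 (cm_mul (C.adj_cm hT) hT)).smul _)
    (show 0 ≤ r⁻¹ • C.t.E T T from smul_nonneg (by positivity) Side.E_nonneg)
    (norm_scale hr ((h2.norm_E h2).trans (by
      rw [← sq, mul_pow, Real.sq_sqrt measureReal_nonneg]; exact h1))) (hF.smul _)
  have h4 := inner_vB_mul C h2 h2 hT hT h.mem h.mem
  rw [h.sa, inner_self_eq_norm_sq_to_K] at h4
  rw [mul_smul_comm, smul_mul_assoc, Side.τ_smul, Side.τ_smul, ← h4, h2.τ_E h2 hT hT,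
    inner_self_eq_norm_sq_to_K, mul_left_comm, ← mul_sub, norm_mul,
    Complex.norm_of_nonneg (by positivity), inv_mul_le_iff₀' hr] at h3
  refine le_of_eq_of_le ?_ h3
  rw [← Real.norm_eq_abs, ← Complex.norm_real]
  push_cast
  rfl

theorem Bad.rgh' (h : Bad C η S F v) (hx : C.t.M x) {r : ℝ} (hr : 0 < r) (h1 : ‖x‖ ≤ r) :
    ‖C.t.τ (v * x)‖ ≤ η * r := by
  have h2 := h.rgh (adjoint (((r⁻¹ : ℝ) : ℂ) • x)) (C.M_adj (hx.smul _))
    ((LinearIsometryEquiv.norm_map _ _).trans_le (norm_scale hr h1))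
  rwa [adjoint_adjoint, smul_mul_assoc, Side.τ_smul, norm_mul,
    Complex.norm_of_nonneg (by positivity), inv_mul_le_iff₀' hr, C.τ_comm hx h.mem] at h2

theorem Bad.esc (h : Bad C η S F v) (hη : 0 < η) (hL : IsCompact L)
    (hF : ∀ T, Cm W T → T * C.t.P L = T → Band C.t F (C.t.E T T)) (hm : 0 < m)
    (h1 : μ'.real L ≤ m) : ‖C.t.vB (C.t.P L * v * C.t.P L)‖ ^ 2 ≤ 3 * m * √η := by
  have hP := C.t.cm_P hL.measurableSet
  have hP1 := C.t.norm_P_le hL.measurableSet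
  have hPP := C.t.P_sq hL.measurableSet
  have hS := C.t.si_P hL.measurableSet hL.measure_lt_top.ne
  have hv : C.t.P L * v ∈ C.t.HS := (hS.mul_right h.mem.2).hs (cm_mul hP h.mem.1)
  obtain ⟨Z, hZ⟩ : ∃ Z, Z = C.t.P L * v * C.t.P L := ⟨_, rfl⟩
  have z1 : Z ∈ C.t.HS := hZ ▸ C.bimB.mulD' hv hP
  have z2 : Z * C.t.P L = Z := by rw [hZ, mul_assoc, hPP]
  have z3 : adjoint Z = Z := by
    rw [hZ, adj_mul, adj_mul, C.t.adjoint_P hL.measurableSet, h.sa, mul_assoc]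
  have hs := Real.sqrt_le_sqrt h1
  have z4 : ‖C.t.vB Z‖ ≤ √m := by
    rw [hZ]
    refine (C.bimB.le' hv hP).trans ((mul_le_of_le_one_left (norm_nonneg _) hP1).trans
      ((norm_vB_mul hP hL hPP h.mem).trans ?_))
    calc _ ≤ 1 * √m * 1 := by gcongr; exact h.hi
      _ = _ := by ring
  obtain ⟨R, r1, r2, r3, r4⟩ := exists_res C z1.1 hη
  rw [z3] at r2
  have hq := cm_sub cm_one r1
  have q1 : (1 - R) * C.t.P L = 1 - R := by rw [r2, smul_mul_assoc, mul_assoc, z2]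
  have hs0 := Real.sqrt_pos.2 hη
  have q2 : ‖C.t.vB (1 - R)‖ ≤ √η * √m := by
    rw [r2, C.bimB.smul _ _ (C.bimB.mulD _ (cm_mul r1 z1.1) _ z1), norm_smul,
      Complex.norm_of_nonneg hη.le]
    calc _ ≤ η * (‖R * Z‖ * √m) := by
          gcongr; exact (C.bimB.le _ (cm_mul r1 z1.1) _ z1).trans (by gcongr)
      _ = √η * (√η * ‖R * Z‖) * √m := by
          rw [← mul_assoc √η, Real.mul_self_sqrt hη.le, mul_assoc]
      _ ≤ √η * 1 * √m := by gcongr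
      _ = _ := by rw [mul_one]
  have q3 := (abs_le.1 (h.iso hq hL q1 (hF _ hq q1) hm
    ((mul_le_of_le_one_left measureReal_nonneg (pow_le_one₀ (norm_nonneg _) r3)).trans h1))).2
  have q4 : ‖C.t.vB ((1 - R) * v)‖ ≤ 2 * √η * √m := by
    refine abs_le_of_sq_le_sq' ?_ (by positivity) |>.2
    have h2 := pow_le_pow_left₀ (norm_nonneg _) q2 2
    have h3 := mul_le_of_le_one_left (sq_nonneg ‖C.t.vB (1 - R)‖)
      (pow_le_one₀ (n := 2) (norm_nonneg _) h.hi)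
    rw [mul_pow, Real.sq_sqrt hη.le, Real.sq_sqrt hm.le] at h2
    rw [mul_pow, mul_pow, Real.sq_sqrt hη.le, Real.sq_sqrt hm.le]
    nlinarith [mul_pos hη hm]
  have q5 : ‖C.t.vB ((1 - R) * Z)‖ ≤ 2 * √η * √m := by
    rw [hZ, ← mul_assoc, ← mul_assoc, q1]
    exact (C.bimB.le' (((si_loc hL q1).mul_right h.mem.2).hs (cm_mul hq h.mem.1)) hP).trans
      ((mul_le_of_le_one_left (norm_nonneg _) hP1).trans q4)
  have e1 : R * Z * C.t.P L = R * Z := by rw [mul_assoc, z2]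
  have hS' := si_loc hL e1
  have e2 : ‖⟪C.t.vB Z, C.t.vB (R * Z)⟫_ℂ‖ ≤ η * (m / √η) := by
    have h2 := inner_vB_mul C hS hS' hP (cm_mul r1 z1.1) h.mem C.t.M_one
    rw [mul_one, mul_one, h.sa] at h2
    conv_lhs => rw [hZ, ← C.bimB.R_v hP hv, ← hZ]
    rw [← adjoint_inner_right, C.bimB.adjoint_R hP, C.t.adjoint_P hL.measurableSet,
      C.bimB.R_v hP (C.bimB.mulD _ r1 _ z1), e1, h2]
    refine h.rgh' (hS.M_E hS' (cm_mul (C.adj_cm hP) (cm_mul r1 z1.1))) (by positivity)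
      ((hS.norm_E hS').trans ?_)
    rw [le_div_iff₀ hs0]
    calc _ ≤ √m * (‖R * Z‖ * √m) * √η := by gcongr
      _ = √η * ‖R * Z‖ * (√m * √m) := by ring
      _ ≤ 1 * (√m * √m) := by gcongr
      _ = _ := by rw [one_mul, Real.mul_self_sqrt hm.le]
  have e3 : C.t.vB Z = C.t.vB (R * Z) + C.t.vB ((1 - R) * Z) := by
    rw [← C.bimB.add _ (C.bimB.mulD _ r1 _ z1) _ (C.bimB.mulD _ hq _ z1), ← add_mul,
      add_sub_cancel, one_mul]
  rw [← hZ, ← inner_self_eq_norm_sq (𝕜 := ℂ)]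
  refine (RCLike.re_le_norm _).trans ?_
  conv_lhs => enter [1, 3]; rw [e3]
  rw [inner_add_right]
  calc _ ≤ η * (m / √η) + √m * (2 * √η * √m) := (norm_add_le _ _).trans
        (add_le_add e2 ((norm_inner_le_norm _ _).trans (by gcongr)))
    _ = √η * √η * (m / √η) + 2 * √η * (√m * √m) := by rw [Real.mul_self_sqrt hη.le]; ring
    _ = _ := by rw [Real.mul_self_sqrt hm.le]; field_simp; ring

theorem α_P (C : Cpl μ μ' W) (g : G) (hL : MeasurableSet L) (e : T * C.t.P L = T) :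
    C.V g * T * C.V g⁻¹ * C.t.P L = C.V g * T * C.V g⁻¹ := by
  rw [mul_assoc, Side.P, C.V_m _ (Bd.ind hL), ← mul_assoc, mul_assoc _ T, ← Side.P, e]

theorem norm_α (C : Cpl μ μ' W) (g : G) (T : K →L[ℂ] K) : ‖C.V g * T * C.V g⁻¹‖ ≤ ‖T‖ :=
  opNorm_le_bound _ (norm_nonneg _) fun ξ => by
    rw [mul_ap, mul_ap, C.norm_V, ← C.norm_V g⁻¹ ξ]; exact T.le_opNorm _

theorem α_mul (C : Cpl μ μ' W) (g : G) (x y : K →L[ℂ] K) :
    C.V g * (x * y) * C.V g⁻¹ = (C.V g * x * C.V g⁻¹) * (C.V g * y * C.V g⁻¹) := by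
  simp only [mul_assoc]
  rw [← mul_assoc (C.V g⁻¹), pi_inv_mul, one_mul]

theorem norm_α_mul (C : Cpl μ μ' W) (g : G) (hT : Cm W T) (hL : IsCompact L)
    (e : T * C.t.P L = T) (hx : C.t.M x) : ‖C.t.vB (C.V g * T * C.V g⁻¹ * adjoint x)‖ ≤
      ‖T‖ * √(μ'.real L) * ‖x C.t.Ω‖ :=
  (norm_vB_mul (C.cm_α hT g) hL (α_P C g hL.measurableSet e) (C.M_adj hx)).trans (by
    rw [C.norm_adj_Ω hx]; gcongr; exact norm_α C g T)

theorem Bad.cen' (h : Bad C η S F v) {g : G} (hg : g ∈ S) (hx : C.t.M x) (h1 : ‖x‖ ≤ 1)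
    (h2 : Band C.t F x) (hT : Cm W T) (hL : IsCompact L) (e : T * C.t.P L = T) :
    ‖C.t.vB (C.V g * T * C.V g⁻¹ * adjoint x * v - C.V g * (T * v) * C.V g⁻¹ * adjoint x)‖ ≤
      ‖T‖ * √(μ'.real L) * (η + 10 * ‖(x - C.u g) C.t.Ω‖) := by
  have h3 := norm_α_mul C g hT hL e ((h.mem.mul hx).sub (hx.mul (C.M_α h.mem g)))
  rw [map_sub, adj_mul, adj_mul, adj_mul, adj_mul, C.adj_V, C.adj_V, inv_inv, h.sa, mul_sub,
    ← mul_assoc (C.V g), ← mul_assoc, ← mul_assoc, ← α_mul] at h3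
  refine h3.trans (mul_le_mul_of_nonneg_left (le_of_eq_of_le ?_ (h.cen g hg x hx h1 h2))
    (by positivity))
  simp only [sub_apply, mul_ap, C.V_Ω, norm_sub_rev (v _)]

end Vale.Agent.P092ES
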