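import Vale.Agent.P092ES.Ult

/-!
P092, block ESC (helper11): operators with compact right support, finite bands.
-/

set_option linter.all false

open scoped InnerProductSpace ENNReal NNReal Pointwise
open MeasureTheory Filter Topology ContinuousLinearMap

namespace Vale.Agent.P092ES

open Vale.Agent.P092CP
open Vale.Agent.P092.RC (Cm)

variable {G G' K : Type} [Group G] [TopologicalSpace G] [IsTopologicalGroup G]
  [LocallyCompactSpace G] [SecondCountableTopology G] [T2Space G] [MeasurableSpace G] [BorelSpace G]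
  [Group G'] [TopologicalSpace G'] [IsTopologicalGroup G'] [LocallyCompactSpace G']
  [SecondCountableTopology G'] [T2Space G'] [MeasurableSpace G'] [BorelSpace G']
  [NormedAddCommGroup K] [InnerProductSpace ℂ K] [CompleteSpace K] {μ : Measure G}
  [μ.IsHaarMeasure] {μ' : Measure G'} [μ'.IsHaarMeasure] {W : Set (K →L[ℂ] K)}
  {T T' a x y v : K →L[ℂ] K} {L L' : Set G'} {c c' : ℝ}

theorem P_mono (S : Side μ' W) (hL : MeasurableSet L) (hL' : MeasurableSet L') (h : L ⊆ L')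
    (e : T * S.P L = T) : T * S.P L' = T := by
  rw [← e, mul_assoc, S.P_mul hL hL', Set.inter_eq_left.2 h]

/-- elements of `B` with compact right support -/
def Loc (S : Side μ' W) : Submodule ℂ (K →L[ℂ] K) where
  carrier := {T | Cm W T ∧ ∃ L, IsCompact L ∧ T * S.P L = T}
  zero_mem' := ⟨cm_zero, ∅, isCompact_empty, zero_mul _⟩
  add_mem' := fun ⟨a, L, h, e⟩ ⟨a', L', h', e'⟩ => ⟨cm_add a a', L ∪ L', h.union h', by
    rw [add_mul, P_mono S h.measurableSet (h.union h').measurableSet Set.subset_union_left e,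
      P_mono S h'.measurableSet (h.union h').measurableSet Set.subset_union_right e']⟩
  smul_mem' := fun c _ ⟨a, L, h, e⟩ => ⟨cm_smul c a, L, h, by rw [smul_mul_assoc, e]⟩

/-- finite band -/
def Band (S : Side μ' W) (F : Finset S.Γ) (x : K →L[ℂ] K) : Prop := ∀ γ ∉ F, S.fc γ x = 0

variable {S : Side μ' W}

theorem si_loc (hL : IsCompact L) (e : T * S.P L = T) : S.SI T (‖T‖ * √(μ'.real L)) := by
  have h := (S.si_P hL.measurableSet hL.measure_lt_top.ne).mul_left T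
  rwa [e] at h

theorem Loc.hs (h : T ∈ Loc S) : T ∈ S.HS := let ⟨a, _, hL, e⟩ := h; (si_loc hL e).hs a

theorem Loc.mul (ha : Cm W a) (h : T ∈ Loc S) : a * T ∈ Loc S :=
  let ⟨b, L, hL, e⟩ := h; ⟨cm_mul ha b, L, hL, by rw [mul_assoc, e]⟩

theorem Loc.conj (h : T ∈ Loc S) (g : G') : S.π g * T * S.π g⁻¹ ∈ Loc S := by
  obtain ⟨b, L, hL, e⟩ := h
  have h1 : IsCompact ((fun x => g⁻¹ * x) ⁻¹' L) := (Homeomorph.mulLeft g⁻¹).isCompact_preimage.2 hL
  refine ⟨S.conj T b g, _, h1, ?_⟩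
  rw [mul_assoc, S.π_P h1.measurableSet, ← mul_assoc, mul_assoc _ T]
  congr 3
  simpa [Set.preimage_preimage] using e

theorem gns_loc (C : Cpl μ μ' W) : Gns (Loc C.t) C.t.vB where
  add x a y b := C.t.gnsB.add x (Loc.hs a) y (Loc.hs b)
  smul c x a := C.t.gnsB.smul c x (Loc.hs a)
  dense := C.t.gnsB.ind isClosed_closure fun d hd => by
    have hK := fun n => isCompact_compactCovering G' n
    have hP := fun n => C.t.cm_P (hK n).measurableSet
    have h1 := C.bimB.tendsto_R (l := atTop) (Eventually.of_forall hP) cm_one (fun ξ => by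
      simp only [C.t.adjoint_P (hK _).measurableSet, adjoint_one]
      refine C.tendsto_L (Eventually.of_forall fun n => ⟨hP n, C.t.norm_P_le (hK n).measurableSet⟩)
        cm_one (fun ξ => ?_) ξ
      rw [← C.t.m_one]
      refine C.t.tendsto_m (C := 1) (fun n => (Bd.ind (hK n).measurableSet).meas)
        (fun n x => by by_cases h : x ∈ compactCovering G' n <;> simp [h]) Bd.one
        (Eventually.of_forall fun x => tendsto_const_nhds.congr' ?_) ξ
      obtain ⟨n, hn⟩ := exists_mem_compactCovering x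
      filter_upwards [eventually_ge_atTop n] with m hm
      exact (Set.indicator_of_mem (compactCovering_subset G' hm hn) _).symm) (C.t.vB d)
    rw [C.bimB.R_one cm_one] at h1
    refine mem_closure_of_tendsto h1 (Eventually.of_forall fun n =>
      ⟨_, ⟨cm_mul hd.1 (hP n), _, hK n, ?_⟩, (C.bimB.R_v (hP n) hd).symm⟩)
    rw [mul_assoc, C.t.P_sq (hK n).measurableSet]

theorem fin_of_compact (S : Side μ' W) (hL : IsCompact L) : {γ : S.Γ | (γ : G') ∈ L}.Finite := by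
  have := S.disc
  exact ((Subgroup.isClosed_of_discrete (H := S.Γ)).isClosedEmbedding_subtypeVal.isCompact_preimage
    hL).finite_of_discrete

/-- the weight of two local operators has a finite band -/
theorem band_E (C : Cpl μ μ' W) (hL : IsCompact L) : ∃ F : Finset C.t.Γ, ∀ T, Cm W T →
    T * C.t.P L = T → Band C.t F (C.t.E T T) := by
  obtain ⟨n, hn⟩ : ∃ n, μ' (C.t.D ∩ compactCovering G' n) ≠ 0 := by
    by_contra! h
    refine C.t.vol_ne ?_
    rw [← Set.inter_univ C.t.D, ← iUnion_compactCovering, Set.inter_iUnion]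
    exact measure_iUnion_null h
  have hK := isCompact_compactCovering G' n
  have hA := C.t.mD.inter hK.measurableSet
  refine ⟨(fin_of_compact C.t (((hL.inv.mul hL).mul hK.inv).mul hK)).toFinset,
    fun T hT e γ hγ => ?_⟩
  have h1 := si_loc hL e
  have h2 := h1.M_E h1 (cm_mul (C.adj_cm hT) hT)
  have h3 := C.M_adj (C.t.M_fc (γ := γ) h2)
  have hA' := measurable_mul_const (γ : G') hA
  have h4 : C.t.fc γ (C.t.E T T) * C.t.P (C.t.D ∩ compactCovering G' n) = 0 := by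
    rw [C.t.fc_P (δ := 1) h2.1 hA (C.t.cell_one ▸ Set.inter_subset_left)]
    refine ContinuousLinearMap.ext fun η => ext_inner_left ℂ fun ξ => ?_
    rw [mul_ap, mul_ap, ← adjoint_inner_left, C.t.adjoint_P hA', h1.inner_E h1, zero_apply,
      inner_zero_right]
    refine integral_eq_zero_of_ae (Eventually.of_forall fun g => ?_)
    have h5 : ∀ {A}, MeasurableSet A → (∀ x ∈ A, g * x ∉ L) → ∀ ζ,
        T (C.t.π g (C.t.P A ζ)) = 0 := fun {A} hA h ζ => by
      rw [← e, ← mul_ap (C.t.π g), C.t.π_P hA, mul_ap, mul_ap, ← mul_ap (C.t.P L),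
        C.t.P_mul hL.measurableSet (measurable_const_mul _ hA), Set.eq_empty_of_forall_notMem
          (s := L ∩ (fun x => g⁻¹ * x) ⁻¹' A) fun x hx => h _ hx.2 (by simpa using hx.1),
        Side.P_empty]
      simp
    by_cases h6 : ∀ x ∈ C.t.D ∩ compactCovering G' n, g * x ∉ L
    · simp [h5 hA h6]
    · push Not at h6
      obtain ⟨x, hx, h6⟩ := h6
      beta_reduce
      rw [h5 hA' fun z hz h7 => hγ ?_]
      · simp
      rw [Set.Finite.mem_toFinset]
      exact ⟨_, ⟨_, ⟨_, Set.inv_mem_inv.2 h7, _, h6, rfl⟩, _, Set.inv_mem_inv.2 hx.2, rfl⟩, _, hz.2,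
        by simp [mul_assoc]⟩
  have h5 := C.t.Tr_P_mul hA h3.2
  rw [← C.t.adjoint_P hA, ← adj_mul, h4, map_zero, Side.Tr_zero, eq_comm, mul_eq_zero] at h5
  rw [← adjoint_adjoint (C.t.fc _ _), C.eq_zero_of_Ω h3 (by simpa using h5.resolve_left hn),
    map_zero]

theorem Band.eq (C : Cpl μ μ' W) {F : Finset C.t.Γ} (h : Band C.t F x) (hx : C.t.M x) :
    x = ∑ γ ∈ F, C.t.fc γ x :=
  C.eq_of_Ω hx (Side.M.sum F fun _ _ => C.t.M_fc hx) ((C.t.hasSum_fc x).unique (by
    rw [sum_apply]; exact hasSum_sum_of_ne_finset_zero fun γ hγ => by rw [h γ hγ]; rfl))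

theorem Band.mono {F F' : Finset S.Γ} (h : Band S F x) (e : F ⊆ F') : Band S F' x :=
  fun γ hγ => h γ fun a => hγ (e a)

theorem Band.smul {F : Finset S.Γ} (h : Band S F x) (c : ℂ) : Band S F (c • x) :=
  fun γ hγ => by rw [S.fc_smul, h γ hγ, smul_zero]

theorem Loc.mul_band (C : Cpl μ μ' W) {F : Finset C.t.Γ} (h : Band C.t F x) (hx : C.t.M x)
    (hT : T ∈ Loc C.t) : T * adjoint x ∈ Loc C.t := by
  obtain ⟨b, L, hL, e⟩ := hT
  rw [h.eq C hx, map_sum, Finset.mul_sum]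
  refine (Loc C.t).sum_mem fun γ _ => ?_
  have h1 : IsCompact ((fun x => x * (γ : G')) ⁻¹' L) :=
    (Homeomorph.mulRight (γ : G')).isCompact_preimage.2 hL
  refine ⟨cm_mul b (C.adj_cm (C.t.cm_fc hx.1)), _, h1, ?_⟩
  rw [mul_assoc, (C.t.deg_fc hx.1).adj.P h1.measurableSet, ← mul_assoc]
  congr 2
  simpa [Set.preimage_preimage] using e

/-- the Hilbert-Schmidt norm of `T x` for local `T` -/
theorem norm_vB_mul (hT : Cm W T) (hL : IsCompact L) (e : T * S.P L = T) (hx : S.M x) :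
    ‖S.vB (T * x)‖ ≤ ‖T‖ * √(μ'.real L) * ‖x S.Ω‖ := by
  refine norm_le_of_enorm_sq (by positivity) ?_
  have h1 := si_loc hL e
  rw [S.enorm_vB ((h1.mul_right hx.2).hs (cm_mul hT hx.1))]
  refine le_of_eq_of_le (lintegral_congr fun g => ?_) (h1.bdd (x S.Ω))
  rw [mul_ap, mul_ap, hx.2.ap]

theorem inner_vB_mul (C : Cpl μ μ' W) (h : C.t.SI T c) (h' : C.t.SI T' c') (hT : Cm W T)
    (hT' : Cm W T') (hv : C.t.M v) (hx : C.t.M x) :
    ⟪C.t.vB (T * v), C.t.vB (T' * x)⟫_ℂ = C.t.τ (adjoint v * C.t.E T T' * x) := by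
  rw [← (h.mul_right hv.2).τ_E (h'.mul_right hx.2) (cm_mul hT hv.1) (cm_mul hT' hx.1),
    (h.mul_right hv.2).E_mul h' hx.2, h.mul_E h' hv.2]

/-- a resolvent -/
theorem exists_res (C : Cpl μ μ' W) (ha : Cm W a) (hc : 0 < c) : ∃ R, Cm W R ∧
    1 - R = (c : ℂ) • (R * a * adjoint a) ∧ ‖1 - R‖ ≤ 1 ∧ √c * ‖R * a‖ ≤ 1 := by
  have h0 : 0 ≤ (c : ℂ) • (a * adjoint a) := by
    have := smul_nonneg hc.le (mul_star_self_nonneg a)
    exact this
  obtain ⟨N, hN⟩ : IsUnit (1 + (c : ℂ) • (a * adjoint a)) :=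
    CStarAlgebra.isUnit_of_le _ (le_add_of_nonneg_right h0) isStrictlyPositive_one
  have h1 : star N.1 = N.1 := by
    rw [hN]; exact ((IsSelfAdjoint.one _).add (.of_nonneg h0)).star_eq
  have h2 : adjoint (↑N⁻¹ : K →L[ℂ] K) = ↑N⁻¹ := by
    refine Units.eq_inv_of_mul_eq_one_right ?_
    conv_lhs => rw [← h1]
    rw [← star_eq_adjoint, ← star_mul, N.mul_inv, star_one]
  have h3 : 1 - (↑N⁻¹ : K →L[ℂ] K) = (c : ℂ) • (a * adjoint a * ↑N⁻¹) := by
    rw [← N.mul_inv, hN, add_mul, one_mul, add_sub_cancel_left, smul_mul_assoc]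
  have h4 : ∀ ξ, ‖ξ - (↑N⁻¹ : K →L[ℂ] K) ξ‖ ^ 2 + c * ‖adjoint a ((↑N⁻¹ : K →L[ℂ] K) ξ)‖ ^ 2 ≤
      ‖ξ‖ ^ 2 := fun ξ => by
    obtain ⟨η, hη⟩ : ∃ η, η = (↑N⁻¹ : K →L[ℂ] K) ξ := ⟨_, rfl⟩
    have h5 : ξ - η = (c : ℂ) • a (adjoint a η) := hη ▸ ap_eq h3 ξ
    have h6 := norm_add_sq (𝕜 := ℂ) η (ξ - η)
    rw [add_sub_cancel] at h6
    have h7 : RCLike.re ⟪η, ξ - η⟫_ℂ = c * ‖adjoint a η‖ ^ 2 := by
      rw [h5, inner_smul_right, ← adjoint_inner_left, inner_self_eq_norm_sq_to_K]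
      simp [← Complex.ofReal_pow]
    rw [← hη, h6, h7]
    nlinarith [sq_nonneg ‖η‖, mul_nonneg hc.le (sq_nonneg ‖adjoint a η‖)]
  refine ⟨↑N⁻¹, fun w hw => (Commute.units_inv_left (show Commute N.1 w from ?_)).eq, ?_,
    opNorm_le_bound _ zero_le_one fun ξ => ?_, ?_⟩
  · rw [hN]; exact cm_add cm_one (cm_smul _ (cm_mul ha (C.adj_cm ha))) w hw
  · have h5 := congrArg adjoint h3
    rwa [map_sub, adjoint_one, map_smulₛₗ, adj_mul, adj_mul, h2, adjoint_adjoint,
      Complex.conj_ofReal, ← mul_assoc] at h5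
  · rw [one_mul]
    refine abs_le_of_sq_le_sq' ?_ (norm_nonneg _) |>.2
    exact (le_add_of_nonneg_right (by positivity)).trans (h4 ξ)
  · rw [← LinearIsometryEquiv.norm_map adjoint, adj_mul, h2, ← le_div_iff₀' (Real.sqrt_pos.2 hc)]
    refine opNorm_le_bound _ (by positivity) fun ξ => ?_
    rw [div_mul_eq_mul_div, one_mul, le_div_iff₀' (Real.sqrt_pos.2 hc)]
    refine abs_le_of_sq_le_sq' ?_ (norm_nonneg _) |>.2
    rw [mul_pow, Real.sq_sqrt hc.le]
    exact (le_add_of_nonneg_left (by positivity)).trans (h4 ξ)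

end Vale.Agent.P092ES
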