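import Vale.Agent.P092ES.Avg

/-!
P092, block ESC (helper11): there is no rough almost central element with the local statistics of
the trace.
-/

set_option linter.all false

open scoped InnerProductSpace ENNReal NNReal Pointwise
open MeasureTheory Filter Topology ContinuousLinearMap

namespace Vale.Agent.P092ES

open Vale.Agent.P092CP
open Vale.Agent.P092.RC (Cm)

variable {G G' K : Type} [Group G] [TopologicalSpace G] [IsTopologicalGroup G]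
  [LocallyCompactSpace G] [SecondCountableTopology G] [T2Space G] [MeasurableSpace G] [BorelSpace G]
  [Group G'] [TopologicalSpace G'] [IsTopologicalGroup G'] [LocallyCompactSpace G']
  [SecondCountableTopology G'] [T2Space G'] [MeasurableSpace G'] [BorelSpace G']
  [NormedAddCommGroup K] [InnerProductSpace ℂ K] [CompleteSpace K] {μ : Measure G}
  [μ.IsHaarMeasure] {μ' : Measure G'} [μ'.IsHaarMeasure] {W : Set (K →L[ℂ] K)}
  {T x : K →L[ℂ] K} {L : Set G'}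

section abs

variable {H : Type} [NormedAddCommGroup H] [InnerProductSpace ℂ H] [CompleteSpace H]
  {A : Set (K →L[ℂ] K)} {D : Submodule ℂ (K →L[ℂ] K)} {v : (K →L[ℂ] K) → H} {a b k : K →L[ℂ] K}

theorem comm_of_inv {a a' r r' X : H →L[ℂ] H} (h : adjoint (a * r) * X * (a * r) = X)
    (h1 : adjoint a = a') (h2 : a' * a = 1) (h3 : a * X = X * a) (h4 : adjoint r = r')
    (h5 : r * r' = 1) : r * X = X * r := by
  conv_lhs => rw [← h]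
  rw [adj_mul, h1, h4, mul_assoc, mul_assoc, ← mul_assoc X, ← h3, ← mul_assoc, h5, one_mul,
    ← mul_assoc, ← mul_assoc, h2, one_mul]

theorem re_R (h : Bim A D v) (h1 : 1 ∈ A) (hb : b ∈ A) (hk : k ∈ A) (hb' : adjoint b = b)
    (h2 : b * b ∈ A) (h3 : 1 + b * b ∈ A) (h4 : 1 + b * b + k ∈ A) (ξ : H) :
    ‖ξ‖ ^ 2 + RCLike.re ⟪ξ, Rm D v k ξ⟫_ℂ ≤ RCLike.re ⟪ξ, Rm D v (1 + b * b + k) ξ⟫_ℂ := by
  rw [h.R_add h3 hk h4, h.R_add h1 h2 h3, h.R_one h1, h.R_mul hb hb h2, add_apply, add_apply,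
    inner_add_right, inner_add_right, mul_ap, ← adjoint_inner_left (Rm D v b), h.adjoint_R hb, hb',
    map_add, map_add, inner_self_eq_norm_sq, show (1 : H →L[ℂ] H) ξ = ξ from rfl,
    inner_self_eq_norm_sq]
  linarith [sq_nonneg ‖Rm D v b ξ‖]

theorem norm_mul_le_one {a b : H →L[ℂ] H} {c : ℝ} (h : ∀ ξ, ‖a ξ‖ ≤ c * ‖ξ‖) (hc : c ≤ 1)
    (hb : ∀ ξ, ‖b ξ‖ = ‖ξ‖) : ‖a * b‖ ≤ 1 :=
  opNorm_le_bound _ zero_le_one fun ξ => (h (b ξ)).trans (by rw [hb]; gcongr)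

theorem inner_tw {r X X' : H →L[ℂ] H} (h : r * X = X' * r) (hr : ∀ ξ η, ⟪r ξ, r η⟫_ℂ = ⟪ξ, η⟫_ℂ)
    (ξ : H) : ⟪r ξ, X' (r ξ)⟫_ℂ = ⟪ξ, X ξ⟫_ℂ := by rw [← mul_ap X', ← h, mul_ap, hr]

end abs

/-- functions which tend to zero at infinity -/
def Van (k : G' → ℂ) : Prop := ∀ ε > 0, ∃ Q, IsCompact Q ∧ ∀ x ∉ Q, ‖k x‖ ≤ ε

/-- a net of counterexamples -/
structure Sq {ι : Type} (C : Cpl μ μ' W) (U : Ultrafilter ι) (η : ι → ℝ) (S : ι → Finset G)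
    (F : ι → Finset C.t.Γ) (v : ι → K →L[ℂ] K) (κ : ℝ) : Prop where
  pos : ∀ i, 0 < η i
  η0 : Tendsto η U (𝓝 0)
  St : ∀ g, ∀ᶠ i in U, g ∈ S i
  Ft : ∀ F₀, ∀ᶠ i in U, F₀ ⊆ F i
  bad : ∀ i, Bad C (η i) (S i) (F i) (v i)
  lim : Tendsto (fun i => ‖v i C.t.Ω‖) U (𝓝 κ)

namespace Sq

variable {ι : Type} {C : Cpl μ μ' W} {U : Ultrafilter ι} {η : ι → ℝ} {S : ι → Finset G}
  {F : ι → Finset C.t.Γ} {v : ι → K →L[ℂ] K} {κ : ℝ} (h : Sq C U η S F v κ) {k φ : G' → ℂ}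
  {X : C.t.LB →L[ℂ] C.t.LB}
include h

theorem κ_pos : 0 < κ :=
  one_half_pos.trans_le (ge_of_tendsto' h.lim fun i => (h.bad i).lo)

theorem band (hL : IsCompact L) : ∀ᶠ i in U, ∀ T, Cm W T → T * C.t.P L = T →
    Band C.t (F i) (C.t.E T T) :=
  let ⟨F₀, h0⟩ := band_E C hL
  (h.Ft F₀).mono fun i hi T a b => (h0 T a b).mono hi

theorem hs (hT : T ∈ Loc C.t) (i : ι) : T * v i ∈ C.t.HS :=
  C.bimB.mulD' (Loc.hs hT) (h.bad i).mem.1

theorem A_v (hT : T ∈ Loc C.t) (i : ι) :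
    Rm C.t.HS C.t.vB (v i) (C.t.vB T) = C.t.vB (T * v i) :=
  C.bimB.R_v (h.bad i).mem.1 (Loc.hs hT)

theorem iso (T : K →L[ℂ] K) (hT : T ∈ Loc C.t) :
    Tendsto (fun i => ‖Rm C.t.HS C.t.vB (v i) (C.t.vB T)‖) U (𝓝 (κ * ‖C.t.vB T‖)) := by
  simp only [h.A_v hT]
  obtain ⟨b, L, hL, e⟩ := hT
  have h1 := h.η0.mul_const (‖T‖ ^ 2 * μ'.real L + 1)
  rw [zero_mul] at h1
  have h2 := (squeeze_zero_norm' ((h.band hL).mono fun i hi => (h.bad i).iso b hL e (hi T b e)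
    (by positivity) (le_add_of_nonneg_right zero_le_one)) h1).add
    ((h.lim.pow 2).mul_const (‖C.t.vB T‖ ^ 2))
  simp only [sub_add_cancel, zero_add, ← mul_pow] at h2
  simpa only [Real.sqrt_sq (norm_nonneg _),
    Real.sqrt_sq (mul_nonneg h.κ_pos.le (norm_nonneg _))] using h2.sqrt

theorem esc (hT : T ∈ Loc C.t) (hk : Bd k) (h0 : Van k) :
    Tendsto (fun i => C.t.vB (T * v i * C.t.m k)) U (𝓝 0) := by
  have hs := h.hs hT
  have h1 := h.iso T hT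
  simp only [h.A_v hT] at h1
  obtain ⟨b, L, hL, e⟩ := hT
  refine Metric.tendsto_nhds.2 fun ε hε => ?_
  have hc : 0 < κ * ‖C.t.vB T‖ + 1 := by have := h.κ_pos; positivity
  obtain ⟨Q, hQ, h2⟩ := h0 (ε / 2 / (κ * ‖C.t.vB T‖ + 1)) (by positivity)
  have hQ' := hL.union hQ
  have hm := hQ'.measurableSet
  have hP := C.t.cm_P hm
  have h3 := ((h.η0.sqrt.const_mul (3 * (μ'.real (L ∪ Q) + 1))).sqrt).const_mul (‖C.t.m k‖ * ‖T‖)
  simp only [Real.sqrt_zero, mul_zero] at h3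
  filter_upwards [h.band hQ', h1.eventually (gt_mem_nhds (lt_add_one _)),
    h3.eventually (gt_mem_nhds (half_pos hε))] with i h4 h5 h6
  have h7 := Real.le_sqrt_of_sq_le ((h.bad i).esc (m := μ'.real (L ∪ Q) + 1) (h.pos i) hQ' h4
    (by positivity) (le_add_of_nonneg_right zero_le_one))
  have h8 : C.t.P (L ∪ Q) * v i * C.t.P (L ∪ Q) ∈ C.t.HS :=
    C.bimB.mulD' (h.hs ⟨hP, _, hQ', C.t.P_sq hm⟩ i) hP
  have h9 := cm_mul (C.t.cm_P hm.compl) (C.t.cm_m hk)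
  have e1 : T * v i * C.t.m k = T * (C.t.P (L ∪ Q) * v i * C.t.P (L ∪ Q)) * C.t.m k +
      T * v i * (C.t.P (L ∪ Q)ᶜ * C.t.m k) := by
    rw [← mul_assoc T, ← mul_assoc T, P_mono C.t hL.measurableSet hm Set.subset_union_left e,
      C.t.P_compl hm, mul_assoc (T * v i), ← mul_add, ← add_mul, add_sub_cancel, one_mul]
  have e2 : ‖C.t.P (L ∪ Q)ᶜ * C.t.m k‖ ≤ ε / 2 / (κ * ‖C.t.vB T‖ + 1) := by
    rw [Side.P, ← C.t.m_mul (Bd.ind hm.compl) hk]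
    refine C.t.norm_m_le ((Bd.ind hm.compl).mul hk).meas (by positivity) fun x => ?_
    by_cases hx : x ∈ (L ∪ Q)ᶜ
    · rw [Pi.mul_apply, Set.indicator_of_mem hx, Pi.one_apply, one_mul]
      exact h2 x fun a => hx (.inr a)
    · rw [Pi.mul_apply, Set.indicator_of_notMem hx, zero_mul, norm_zero]; positivity
  have h10 := C.bimB.mulD _ b _ h8
  rw [dist_zero_right, e1, C.bimB.add _ (C.bimB.mulD' h10 (C.t.cm_m hk)) _
    (C.bimB.mulD' (hs i) h9), ← add_halves ε]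
  refine (norm_add_le _ _).trans_lt (add_lt_add_of_lt_of_le (lt_of_le_of_lt ?_ h6) ?_)
  · refine (C.bimB.le' h10 (C.t.cm_m hk)).trans ?_
    rw [mul_assoc ‖C.t.m k‖]
    gcongr
    exact (C.bimB.le _ b _ h8).trans (by gcongr)
  · refine (C.bimB.le' (hs i) h9).trans ?_
    calc _ ≤ ε / 2 / (κ * ‖C.t.vB T‖ + 1) * (κ * ‖C.t.vB T‖ + 1) := by gcongr
      _ = _ := div_mul_cancel₀ _ hc.ne'

theorem hig (hT : T ∈ Loc C.t) (hφ : Bd φ) (h0 : ∀ s, Van fun x => φ (x * s) - φ x) (g : G)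
    {F₀ : Finset C.t.Γ} (hx : C.t.M x) (hb : Band C.t F₀ x) :
    Tendsto (fun i => C.t.vB (C.V g * (T * v i) * C.V g⁻¹ * adjoint x * C.t.m φ -
      C.V g * (T * v i * C.t.m φ) * C.V g⁻¹ * adjoint x)) U (𝓝 0) := by
  have hk : ∀ γ : C.t.Γ, Bd fun y => φ (y * (γ⁻¹ : C.t.Γ)) - φ y := fun γ =>
    (hφ.comp (measurable_mul_const _)).sub hφ
  have hα : ∀ {d}, d ∈ C.t.HS → C.V g * d * C.V g⁻¹ ∈ C.t.HS := fun {d} hd =>
    ⟨C.cm_α hd.1 g, by rw [C.Tr_α hd.1]; exact hd.2⟩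
  have h1 := fun (γ : C.t.Γ) i => C.bimB.mulD' (h.hs hT i) (C.t.cm_m (hk γ))
  have h2 := fun γ : C.t.Γ => C.adj_cm (C.t.cm_fc (γ := γ) hx.1)
  have h3 := tendsto_finsetSum F₀ fun γ _ => squeeze_zero_norm
    (f := fun i => C.t.vB (C.V g * (T * v i * C.t.m fun y => φ (y * (γ⁻¹ : C.t.Γ)) - φ y) *
      C.V g⁻¹ * adjoint (C.t.fc γ x))) (fun i => (C.bimB.le' (hα (h1 γ i)) (h2 γ)).trans_eq
        (congrArg (‖adjoint (C.t.fc γ x)‖ * ·) (norm_of_enorm_sq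
          ((C.t.enorm_vB (hα (h1 γ i))).trans ((C.Tr_α (h1 γ i).1 g).trans
            (C.t.enorm_vB (h1 γ i)).symm)))))
    (by simpa only [norm_zero, mul_zero] using
      (h.esc hT (hk γ) (h0 _)).norm.const_mul ‖adjoint (C.t.fc γ x)‖)
  rw [Finset.sum_const_zero] at h3
  refine h3.congr fun i => ?_
  rw [← C.bimB.sum _ fun γ _ => C.bimB.mulD' (hα (h1 γ i)) (h2 γ)]
  congr 1
  conv_rhs => rw [hb.eq C hx, map_sum, Finset.mul_sum, Finset.mul_sum, Finset.sum_mul,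
    ← Finset.sum_sub_distrib]
  refine Finset.sum_congr rfl fun γ _ => ?_
  have e : ∀ {f}, Bd f → C.V g * (T * v i * C.t.m f) * C.V g⁻¹ =
      C.V g * (T * v i) * C.V g⁻¹ * C.t.m f := fun hf => by
    rw [mul_assoc _ (C.V g⁻¹), C.V_m _ hf]; simp only [mul_assoc]
  rw [e hφ, e (hk γ), mul_assoc _ _ (C.t.m φ), (C.t.deg_fc hx.1).adj φ hφ,
    ← mul_assoc _ (C.t.m _) (adjoint _), ← sub_mul,
    ← mul_sub, ← C.t.m_sub (hφ.comp (measurable_mul_const _)) hφ]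
  rfl

theorem comm_L {Y : K →L[ℂ] K} (hY : Cm W Y) (hX : Lim (Loc C.t) C.t.vB U
    (fun i => Rm C.t.HS C.t.vB (v i)) (Rm C.t.HS C.t.vB Y) X) (b : K →L[ℂ] K) (hb : Cm W b) :
    Lm C.t.HS C.t.vB b * X = X * Lm C.t.HS C.t.vB b :=
  have e := C.bimB.adjoint_L hb
  have hb' := C.adj_cm hb
  Lim.comm (gns_loc C) hX hX (fun d hd => ⟨_, Loc.mul hb hd, C.bimB.L_v hb (Loc.hs hd)⟩)
    (fun d hd => ⟨_, Loc.mul hb' hd, e ▸ C.bimB.L_v hb' (Loc.hs hd)⟩)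
    (fun i => C.bimB.L_R hb (h.bad i).mem.1) (fun i => e ▸ C.bimB.L_R hb' (h.bad i).mem.1)
    (C.bimB.L_R hb hY)

theorem comm_β {X' : C.t.LB →L[ℂ] C.t.LB} (hφ : Bd φ) (g : G') (hX : Lim (Loc C.t) C.t.vB U
    (fun i => Rm C.t.HS C.t.vB (v i)) (Rm C.t.HS C.t.vB (C.t.m φ)) X)
    (hX' : Lim (Loc C.t) C.t.vB U (fun i => Rm C.t.HS C.t.vB (v i))
      (Rm C.t.HS C.t.vB (C.t.m fun x => φ (g⁻¹ * x))) X') :
    C.admβ.rep g * X = X' * C.admβ.rep g :=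
  have e := C.admβ.adj_rep g
  have e' : ∀ g i, C.admβ.rep g * Rm C.t.HS C.t.vB (v i) = Rm C.t.HS C.t.vB (v i) * C.admβ.rep g :=
    fun g i => (C.admβ.rep_R g (h.bad i).mem.1).trans (by rw [(h.bad i).mem.2.conj])
  Lim.comm (gns_loc C) hX hX' (fun d hd => ⟨_, Loc.conj hd g, C.admβ.rep_v g (Loc.hs hd)⟩)
    (fun d hd => ⟨_, Loc.conj hd g⁻¹, e ▸ C.admβ.rep_v g⁻¹ (Loc.hs hd)⟩) (e' g)
    (fun i => e ▸ e' g⁻¹ i) ((C.admβ.rep_R g (C.t.cm_m hφ)).trans (by rw [C.t.cov hφ]))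

theorem comm_σ (hφ : Bd φ) (h0 : ∀ s, Van fun x => φ (x * s) - φ x) (g : G)
    (hK : ∀ ε > 0, ∃ F x, C.t.M x ∧ ‖x‖ ≤ 1 ∧ Band C.t F x ∧ ‖(x - C.u g) C.t.Ω‖ ≤ ε)
    (hX : Lim (Loc C.t) C.t.vB U (fun i => Rm C.t.HS C.t.vB (v i)) (Rm C.t.HS C.t.vB (C.t.m φ)) X) :
    C.admσ.rep g * X = X * C.admσ.rep g := by
  have hu := (C.u_M g).1
  have hu' := C.adj_cm hu
  have hZ : ∀ {d}, d ∈ C.t.HS → (Lm C.t.HS C.t.vB (adjoint (C.u g)) * C.admσ.rep g) (C.t.vB d) =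
      C.t.vB (C.V g * d * C.V g⁻¹ * adjoint (C.u g)) := fun {d} hd => by
    rw [mul_ap, C.admσ.rep_v g hd, C.bimB.L_v hu' (C.admσ.memD g d hd), C.V_conj, mul_assoc _ (C.u g),
      C.u_mul_adj, mul_one]
  have hα : ∀ {d}, d ∈ C.t.HS → C.V g * d * C.V g⁻¹ ∈ C.t.HS := fun {d} hd =>
    ⟨C.cm_α hd.1 g, by rw [C.Tr_α hd.1]; exact hd.2⟩
  have hZ1 : ∀ ξ, ‖(Lm C.t.HS C.t.vB (adjoint (C.u g)) * C.admσ.rep g) ξ‖ = ‖ξ‖ :=
    C.bimB.fext (continuous_norm.comp (map_continuous _)) continuous_norm fun d hd =>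
      norm_of_enorm_sq (by
        have h1 := C.admσ.memD g d hd
        rw [mul_ap, C.admσ.rep_v g hd, C.bimB.L_v hu' h1, C.t.enorm_vB (C.bimB.mulD _ hu' _ h1),
          C.t.enorm_vB hd, ← C.Tr_σ hd.1 g]
        exact C.t.Tr_congr fun ξ => C.norm_adj_u g _)
  refine comm_of_inv (Lim.inv (gns_loc C) h.iso hX hZ1 fun T hT ε hε => ?_) (C.bimB.adjoint_L hu')
    ((C.bimB.L_mul (C.adj_cm hu') hu' (cm_mul (C.adj_cm hu') hu')).symm.trans (by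
      rw [adjoint_adjoint, C.u_mul_adj, C.bimB.L_one cm_one]))
    (h.comm_L (C.t.cm_m hφ) hX _ hu') (C.admσ.adj_rep g) (pi_mul_inv g)
  obtain ⟨b, L, hL, e⟩ := id hT
  obtain ⟨r, hr⟩ : ∃ r, r = ‖T‖ * √(μ'.real L) := ⟨_, rfl⟩
  have r0 : 0 ≤ r := by rw [hr]; positivity
  have r1 : r * (11 * (ε / 11 / (r + 1))) ≤ ε := by
    rw [← mul_div_assoc, mul_div_cancel₀ _ (by norm_num), ← mul_div_assoc, div_le_iff₀ (by positivity)]
    nlinarith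
  have r2 : 0 < ε / 11 / (r + 1) := by positivity
  obtain ⟨F₀, x, hx, x1, x2, x3⟩ := hK _ r2
  have hx' := C.adj_cm hx.1
  have hT' : C.V g * T * C.V g⁻¹ ∈ Loc C.t := ⟨C.cm_α b g, L, hL, α_P C g hL.measurableSet e⟩
  have he := Loc.mul_band C x2 hx hT'
  have hy : ∀ {d}, d ∈ C.t.HS → (Rm C.t.HS C.t.vB (C.u g * adjoint x) *
      (Lm C.t.HS C.t.vB (adjoint (C.u g)) * C.admσ.rep g)) (C.t.vB d) =
      C.t.vB (C.V g * d * C.V g⁻¹ * adjoint x) := fun {d} hd => by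
    rw [mul_ap, hZ hd, C.bimB.R_v (cm_mul hu hx') (C.bimB.mulD' (hα hd) hu'), mul_assoc,
      ← mul_assoc _ (C.u g), C.adj_u_mul, one_mul]
  refine ⟨_, _, he, norm_mul_le_one (C.bimB.norm_R (cm_mul hu hx')) (opNorm_le_bound _ zero_le_one
    fun ξ => ?_) hZ1, ?_, ?_⟩
  · rw [mul_ap, C.norm_u]
    exact (adjoint x).le_of_opNorm_le ((LinearIsometryEquiv.norm_map _ _).trans_le x1) ξ
  · rw [hZ (Loc.hs hT), ← C.bimB.sub (Loc.hs he) (C.bimB.mulD' (Loc.hs hT') hu'), ← mul_sub,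
      ← map_sub]
    refine (norm_α_mul C g b hL e (hx.sub (C.u_M g))).trans (le_trans ?_ r1)
    rw [← hr]
    gcongr
    linarith
  · filter_upwards [h.St g, h.Ft F₀, h.η0.eventually (gt_mem_nhds r2),
      (h.hig hT hφ h0 g hx x2).norm.eventually (gt_mem_nhds (norm_zero.trans_lt hε))]
      with i h1 h2 h3 h4
    have h5 := h.hs hT i
    have h6 := C.bimB.mulD' (hα h5) hx'
    have h7 := C.bimB.mulD' h5 (C.t.cm_m hφ)
    rw [h.A_v he, h.A_v hT, hy h5, C.bimB.R_v (C.t.cm_m hφ) h5, hy h7, C.bimB.R_v (C.t.cm_m hφ) h6,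
      ← C.bimB.sub (h.hs he i) h6, ← C.bimB.sub (C.bimB.mulD' h6 (C.t.cm_m hφ))
        (C.bimB.mulD' (hα h7) hx')]
    refine ⟨((h.bad i).cen' h1 hx x1 (x2.mono h2) b hL e).trans (le_trans ?_ r1), h4.le⟩
    rw [← hr]
    gcongr
    linarith

theorem pos' {Φ : G' → ℝ} (hΦ : Bd fun x => (Φ x : ℂ)) (hL : IsCompact L) (h1 : ∀ x ∉ L, 1 ≤ Φ x)
    (hX : Lim (Loc C.t) C.t.vB U (fun i => Rm C.t.HS C.t.vB (v i))
      (Rm C.t.HS C.t.vB (C.t.m fun x => (Φ x : ℂ))) X) (ξ : C.t.LB) :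
    (κ * ‖ξ‖) ^ 2 ≤ RCLike.re ⟪ξ, X ξ⟫_ℂ := by
  refine (gns_loc C).ind (p := fun ξ => (κ * ‖ξ‖) ^ 2 ≤ RCLike.re ⟪ξ, X ξ⟫_ℂ)
    (isClosed_le ((continuous_norm.const_mul κ).pow 2) (RCLike.continuous_re.comp
      (continuous_id.inner X.continuous))) (fun T hT => ?_) ξ
  have hm : Measurable Φ := Complex.measurable_re.comp hΦ.meas
  have hψ : Bd fun x => (√(Φ x - 1) : ℂ) := by
    obtain ⟨c, hc⟩ := hΦ.bdd
    refine Bd.ofReal (hm.sub_const 1).sqrt (C := √c) fun x => ?_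
    rw [abs_of_nonneg (Real.sqrt_nonneg _)]
    exact Real.sqrt_le_sqrt ((sub_le_self _ zero_le_one).trans (Complex.re_le_norm _ |>.trans (hc x)))
  have hk := hΦ.sub (Bd.one.add (hψ.mul hψ))
  have e := C.t.m_add (Bd.one.add (hψ.mul hψ)) hk
  rw [add_sub_cancel, C.t.m_add Bd.one (hψ.mul hψ), C.t.m_one, C.t.m_mul hψ hψ] at e
  have h2 := h.esc hT hk fun ε hε => ⟨L, hL, fun x hx => by
    simp [← Complex.ofReal_mul, Real.mul_self_sqrt (sub_nonneg.2 (h1 x hx)), hε.le]⟩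
  have h3 := (tendsto_inner_zero h2 (h.iso T hT) 1).2
  have h4 := ((h.iso T hT).pow 2).add ((RCLike.continuous_re.tendsto _).comp h3)
  rw [map_zero, add_zero] at h4
  refine le_of_tendsto_of_tendsto' h4 ((RCLike.continuous_re.tendsto _).comp (hX T hT T hT))
    fun i => ?_
  have h5 := C.t.cm_m hψ
  have h6 := re_R C.bimB cm_one h5 (C.t.cm_m hk) ((C.t.adjoint_m hψ).trans (by
    congr 1; funext x; exact Complex.conj_ofReal _)) (cm_mul h5 h5) (cm_add cm_one (cm_mul h5 h5))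
    (cm_add (cm_add cm_one (cm_mul h5 h5)) (C.t.cm_m hk)) (Rm C.t.HS C.t.vB (v i) (C.t.vB T))
  rw [← e] at h6
  refine le_of_eq_of_le ?_ h6
  rw [h.A_v hT, C.bimB.R_v (C.t.cm_m hk) (h.hs hT i)]
  simp only [Function.comp, h.A_v hT]
  rfl

end Sq

/-- **escape**: base form -/
theorem esc (C : Cpl μ μ' W) {σ : Type} [Fintype σ] {f : σ → G' → ℝ} {g : σ → G'}
    (hL : IsCompact L) (hf : ∀ j, Bd fun x => (f j x : ℂ))
    (h0 : ∀ j s, ∀ ε > 0, ∃ Q, IsCompact Q ∧ ∀ x ∉ Q, |f j (x * s) - f j x| ≤ ε)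
    (h1 : ∀ x ∉ L, 1 ≤ ∑ j, (f j ((g j)⁻¹ * x) - f j x))
    (hK : ∀ g, ∀ ε > 0, ∃ F x, C.t.M x ∧ ‖x‖ ≤ 1 ∧ Band C.t F x ∧ ‖(x - C.u g) C.t.Ω‖ ≤ ε) :
    ∃ η > 0, ∃ S F, ∀ v, ¬Bad C η S F v := by
  classical
  by_contra! H
  choose v hv using fun i : Set.Ioi (0 : ℝ) × Finset G × Finset C.t.Γ => H i.1 i.1.2 i.2.1 i.2.2
  let U := Ultrafilter.of ((atBot : Filter (Set.Ioi (0 : ℝ))) ×ˢ (atTop : Filter (Finset G)) ×ˢ
    (atTop : Filter (Finset C.t.Γ)))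
  have hU : U.toFilter ≤ _ := Ultrafilter.of_le _
  obtain ⟨κ, -, hκ⟩ := isCompact_Icc.ultrafilter_le_nhds (U.map fun i => ‖v i C.t.Ω‖)
    (le_principal_iff.2 (mem_map.2 (univ_mem' fun i => ⟨(hv i).lo, (hv i).hi⟩)))
  have h : Sq C U (fun i => i.1) (fun i => i.2.1) (fun i => i.2.2) v κ :=
    ⟨fun i => i.1.2, ((map_coe_Ioi_atBot (0 : ℝ)).le.trans nhdsWithin_le_nhds |>
      Tendsto.comp <| tendsto_fst).mono_left hU,
      fun g => hU (((tendsto_fst.comp tendsto_snd).eventually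
        (eventually_ge_atTop ({g} : Finset G))).mono fun _ h => Finset.singleton_subset_iff.1 h),
      fun F => hU ((tendsto_snd.comp tendsto_snd).eventually (eventually_ge_atTop F)), hv, hκ⟩
  choose X hX using fun φ : G' → ℂ => exists_Lim (gns_loc C) h.iso (Rm C.t.HS C.t.vB (C.t.m φ))
  obtain ⟨T, hT, hT0⟩ := exists_one C
  have hf' : ∀ j, Bd fun x => (f j ((g j)⁻¹ * x) : ℂ) := fun j =>
    (hf j).comp (measurable_const_mul _)
  have h2 : ∀ j, ⟪C.t.vB T, (X (fun x => f j ((g j)⁻¹ * x)) - X fun x => f j x) (C.t.vB T)⟫_ℂ = 0 :=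
    fun j => by
    have h3 := inner_tw (h.comm_β (hf j) (g j) (hX _) (hX _)) (C.admβ.inner_rep _)
      (C.admβ.rep (g j)⁻¹ (C.t.vB T))
    rw [pi_ap_inv, C.admβ.rep_v _ hT.1, hT.avg (hT.conj _) (h.comm_L (C.t.cm_m (hf j)) (hX _))
      fun k => h.comm_σ (hf j) (fun s ε hε => by
        simpa only [← Complex.ofReal_sub, Complex.norm_real, Real.norm_eq_abs] using h0 j s ε hε)
        k (hK k) (hX _)] at h3
    rw [sub_apply, inner_sub_right, h3, sub_self]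
  have e : (fun x => ((∑ j, (f j ((g j)⁻¹ * x) - f j x) : ℝ) : ℂ)) =
      ∑ j, ((fun x => (f j ((g j)⁻¹ * x) : ℂ)) - fun x => (f j x : ℂ)) := by
    funext x; simp
  have hb := fun j => C.t.cm_m ((hf' j).sub (hf j))
  have h3 := h.pos' (X := ∑ j, (X (fun x => f j ((g j)⁻¹ * x)) - X fun x => f j x))
    (e ▸ Bd.sum _ fun j _ => (hf' j).sub (hf j)) hL h1 (by
      have h4 := Lim.sum Finset.univ fun j => (hX fun x => f j ((g j)⁻¹ * x)).sub (hX fun x => f j x)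
      refine cast (congrArg (Lim _ _ _ _ · _) (Eq.symm (C.bimB.ext fun d hd => ?_))) h4
      rw [e, C.t.m_sum _ fun j _ => (hf' j).sub (hf j), C.bimB.R_v (cm_sum _ fun j _ => hb j) hd,
        Finset.mul_sum, C.bimB.sum _ fun j _ => C.bimB.mulD' hd (hb j), sum_apply]
      refine Finset.sum_congr rfl fun j _ => ?_
      rw [← C.bimB.R_v (hb j) hd, C.t.m_sub (hf' j) (hf j), C.bimB.R_sub (C.t.cm_m (hf' j))
        (C.t.cm_m (hf j)) (cm_sub (C.t.cm_m (hf' j)) (C.t.cm_m (hf j)))]) (C.t.vB T)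
  rw [sum_apply, inner_sum, Finset.sum_eq_zero fun j _ => h2 j, map_zero] at h3
  exact (pow_pos (mul_pos h.κ_pos (norm_pos_iff.2 hT0)) 2).not_ge h3

end Vale.Agent.P092ES
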