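import Vale.Agent.P092CP.Four

/-!
P092, block ESC (helper11): ultralimits of compressions by asymptotically isometric operators.
-/

set_option linter.all false

open scoped InnerProductSpace ENNReal NNReal
open MeasureTheory Filter Topology ContinuousLinearMap

namespace Vale.Agent.P092ES

open Vale.Agent.P092CP

variable {E H ι : Type} [AddCommGroup E] [Module ℂ E] [NormedAddCommGroup H] [InnerProductSpace ℂ H]
  [CompleteSpace H] {D : Submodule ℂ E} {w : E → H} {U : Ultrafilter ι} {A : ι → H →L[ℂ] H} {κ : ℝ}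

theorem exists_lim {a : ι → ℂ} {r : ℝ} (h : ∀ᶠ i in U, ‖a i‖ ≤ r) : ∃ z, Tendsto a U (𝓝 z) := by
  obtain ⟨z, -, hz⟩ := (isCompact_closedBall (0 : ℂ) r).ultrafilter_le_nhds (U.map a)
    (le_principal_iff.2 (h.mono fun i hi => mem_closedBall_zero_iff.2 hi))
  exact ⟨z, hz⟩

theorem ext2 (h : Gns D w) {X X' : H →L[ℂ] H}
    (e : ∀ d ∈ D, ∀ d' ∈ D, ⟪w d, X (w d')⟫_ℂ = ⟪w d, X' (w d')⟫_ℂ) : X = X' :=
  h.ext fun d' hd' => ext_inner_left ℂ (h.fext (by fun_prop) (by fun_prop) fun d hd => e d hd d' hd')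

/-- `X` is the limit of the compressions of `Y` -/
def Lim (D : Submodule ℂ E) (w : E → H) (U : Ultrafilter ι) (A : ι → H →L[ℂ] H)
    (Y X : H →L[ℂ] H) : Prop :=
  ∀ d ∈ D, ∀ d' ∈ D, Tendsto (fun i => ⟪A i (w d), Y (A i (w d'))⟫_ℂ) U (𝓝 ⟪w d, X (w d')⟫_ℂ)

theorem exists_Lim (h : Gns D w) (hA : ∀ d ∈ D, Tendsto (fun i => ‖A i (w d)‖) U (𝓝 (κ * ‖w d‖)))
    (Y : H →L[ℂ] H) : ∃ X, Lim D w U A Y X := by
  have h1 : ∀ d d', ∃ z : ℂ, d ∈ D → d' ∈ D →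
      Tendsto (fun i => ⟪A i (w d), Y (A i (w d'))⟫_ℂ) U (𝓝 z) ∧
        ‖z‖ ≤ κ * ‖w d‖ * (‖Y‖ * κ) * ‖w d'‖ := fun d d' => by
    by_cases hd : d ∈ D ∧ d' ∈ D
    · have h2 := (hA d hd.1).mul ((hA d' hd.2).const_mul ‖Y‖)
      have h3 : ∀ i, ‖⟪A i (w d), Y (A i (w d'))⟫_ℂ‖ ≤ ‖A i (w d)‖ * (‖Y‖ * ‖A i (w d')‖) :=
        fun i => (norm_inner_le_norm _ _).trans (by gcongr; exact Y.le_opNorm _)
      obtain ⟨z, hz⟩ := exists_lim ((h2.eventually (gt_mem_nhds (lt_add_one _))).mono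
        fun i hi => (h3 i).trans hi.le)
      exact ⟨z, fun _ _ => ⟨hz, (le_of_tendsto_of_tendsto' hz.norm h2 h3).trans_eq (by ring)⟩⟩
    · exact ⟨0, fun a b => (hd ⟨a, b⟩).elim⟩
  choose b hb using h1
  have h4 : ∀ d, ∃ φ : H →L[ℂ] ℂ, d ∈ D → (∀ d' ∈ D, φ (w d') = b d d') ∧
      ∀ ξ, ‖φ ξ‖ ≤ κ * ‖w d‖ * (‖Y‖ * κ) * ‖ξ‖ := fun d => by
    by_cases hd : d ∈ D
    · obtain ⟨φ, hφ⟩ := h.exists_ext (σ := RingHom.id ℂ) (w := b d)
        (fun x hx y hy => tendsto_nhds_unique (hb _ _ hd (D.add_mem hx hy)).1 (by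
          simpa only [h.add x hx y hy, map_add, inner_add_right] using
            (hb _ _ hd hx).1.add (hb _ _ hd hy).1))
        (fun c x hx => tendsto_nhds_unique (hb _ _ hd (D.smul_mem c hx)).1 (by
          simpa only [h.smul c x hx, map_smul, inner_smul_right, RingHom.id_apply, smul_eq_mul]
            using (hb _ _ hd hx).1.const_mul c))
        fun d' hd' => (hb _ _ hd hd').2
      exact ⟨φ, fun _ => hφ⟩
    · exact ⟨0, fun a => (hd a).elim⟩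
  choose φ hφ using h4
  obtain ⟨Φ, hΦ, -⟩ := h.exists_ext (σ := starRingEnd ℂ) (w := φ) (C := κ * (‖Y‖ * κ))
    (fun x hx y hy => by
      refine ContinuousLinearMap.ext (h.fext (map_continuous _) (map_continuous _) fun d hd => ?_)
      rw [add_apply, (hφ _ (D.add_mem hx hy)).1 d hd, (hφ _ hx).1 d hd, (hφ _ hy).1 d hd]
      exact tendsto_nhds_unique (hb _ _ (D.add_mem hx hy) hd).1 (by
        simpa only [h.add x hx y hy, map_add, inner_add_left] using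
          (hb _ _ hx hd).1.add (hb _ _ hy hd).1))
    (fun c x hx => by
      refine ContinuousLinearMap.ext (h.fext (map_continuous _) (map_continuous _) fun d hd => ?_)
      rw [smul_apply, (hφ _ (D.smul_mem c hx)).1 d hd, (hφ _ hx).1 d hd]
      exact tendsto_nhds_unique (hb _ _ (D.smul_mem c hx) hd).1 (by
        simpa only [h.smul c x hx, map_smul, inner_smul_left, smul_eq_mul]
          using (hb _ _ hx hd).1.const_mul _))
    fun d hd => opNorm_le_bound _ (by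
      rw [mul_right_comm, mul_assoc κ, mul_comm ‖w d‖, ← mul_assoc κ, mul_left_comm κ]
      exact mul_nonneg (mul_nonneg (norm_nonneg _) (mul_self_nonneg _)) (norm_nonneg _))
      fun ξ => ((hφ d hd).2 ξ).trans_eq (by ring)
  refine ⟨adjoint (InnerProductSpace.continuousLinearMapOfBilin Φ), fun d hd d' hd' => ?_⟩
  rw [adjoint_inner_right, InnerProductSpace.continuousLinearMapOfBilin_apply, hΦ d hd,
    (hφ d hd).1 d' hd']
  exact (hb _ _ hd hd').1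

variable {X X' Y Y' Z : H →L[ℂ] H}

theorem Lim.uniq (h : Gns D w) (h1 : Lim D w U A Y X) (h2 : Lim D w U A Y X') : X = X' :=
  ext2 h fun d hd d' hd' => tendsto_nhds_unique (h1 d hd d' hd') (h2 d hd d' hd')

theorem Lim.sub (h1 : Lim D w U A Y X) (h2 : Lim D w U A Y' X') : Lim D w U A (Y - Y') (X - X') :=
  fun d hd d' hd' => by
    simpa only [sub_apply, inner_sub_right] using (h1 d hd d' hd').sub (h2 d hd d' hd')

theorem Lim.sum {σ : Type*} (s : Finset σ) {X Y : σ → H →L[ℂ] H}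
    (h : ∀ j, Lim D w U A (Y j) (X j)) : Lim D w U A (∑ j ∈ s, Y j) (∑ j ∈ s, X j) :=
  fun d hd d' hd' => by
    simpa only [sum_apply, inner_sum] using tendsto_finsetSum s fun j _ => h j d hd d' hd'

/-- exact intertwining -/
theorem Lim.comm (h : Gns D w) (h1 : Lim D w U A Y X) (h2 : Lim D w U A Y' X')
    (hZ : ∀ d ∈ D, ∃ e ∈ D, Z (w d) = w e) (hZ' : ∀ d ∈ D, ∃ e ∈ D, adjoint Z (w d) = w e)
    (hA : ∀ i, Z * A i = A i * Z) (hA' : ∀ i, adjoint Z * A i = A i * adjoint Z)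
    (hY : Z * Y = Y' * Z) : Z * X = X' * Z := ext2 h fun d hd d' hd' => by
  obtain ⟨e, he, e1⟩ := hZ' d hd
  obtain ⟨e', he', e2⟩ := hZ d' hd'
  rw [mul_ap, mul_ap, ← adjoint_inner_left, e1, e2]
  refine tendsto_nhds_unique (h1 e he d' hd') ((h2 d hd e' he').congr fun i => ?_)
  rw [← e1, ← e2, ← mul_ap (A i) Z, ← hA, ← mul_ap (A i), ← hA', mul_ap, mul_ap, adjoint_inner_left,
    ← mul_ap Z Y, hY, mul_ap]

theorem tendsto_curry {α β γ : Type*} [PseudoMetricSpace γ] {l : Filter α} {m : Filter β}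
    {F : α → β → γ} {G : α → γ} {c : γ} (h : ∀ a, Tendsto (F a) m (𝓝 (G a)))
    (h' : Tendsto G l (𝓝 c)) : Tendsto (fun p : α × β => F p.1 p.2) (l.curry m) (𝓝 c) :=
  Metric.tendsto_nhds.2 fun ε hε => eventually_curry_iff.2
    ((Metric.tendsto_nhds.1 h' _ (half_pos hε)).mono fun a ha =>
      (Metric.tendsto_nhds.1 (h a) _ (half_pos hε)).mono fun b hb =>
        (dist_triangle _ (G a) _).trans_lt (by linarith))

theorem tendsto_inner_zero {α : Type*} {l : Filter α} {a b : α → H} {c : ℝ}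
    (ha : Tendsto a l (𝓝 0)) (hb : Tendsto (fun x => ‖b x‖) l (𝓝 c)) (Y : H →L[ℂ] H) :
    Tendsto (fun x => ⟪a x, Y (b x)⟫_ℂ) l (𝓝 0) ∧ Tendsto (fun x => ⟪b x, Y (a x)⟫_ℂ) l (𝓝 0) := by
  have h := (ha.norm.mul hb).const_mul ‖Y‖
  rw [norm_zero, zero_mul, mul_zero] at h
  refine ⟨squeeze_zero_norm (fun x => ?_) h, squeeze_zero_norm (fun x => ?_) h⟩ <;>
    exact (norm_inner_le_norm _ _).trans ((mul_le_mul_of_nonneg_left (Y.le_opNorm _)
      (norm_nonneg _)).trans_eq (by ring))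

/-- approximate intertwining -/
theorem Lim.inv (h : Gns D w) (hA : ∀ d ∈ D, Tendsto (fun i => ‖A i (w d)‖) U (𝓝 (κ * ‖w d‖)))
    (h1 : Lim D w U A Y X) (hZ : ∀ ξ, ‖Z ξ‖ = ‖ξ‖)
    (hy : ∀ d ∈ D, ∀ ε > 0, ∃ y : H →L[ℂ] H, ∃ e ∈ D, ‖y‖ ≤ 1 ∧ ‖w e - Z (w d)‖ ≤ ε ∧ ∀ᶠ i in U,
      ‖A i (w e) - y (A i (w d))‖ ≤ ε ∧ ‖Y (y (A i (w d))) - y (Y (A i (w d)))‖ ≤ ε) :
    adjoint Z * X * Z = X := by
  refine ContinuousLinearMap.coe_injective ((ext_inner_map _ _).1 fun ξ => ?_)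
  rw [← inner_conj_symm, ← inner_conj_symm (_ : H) ξ]
  refine congrArg _ (h.fext (f := fun ξ => ⟪ξ, (adjoint Z * X * Z) ξ⟫_ℂ) (g := fun ξ => ⟪ξ, X ξ⟫_ℂ)
    (by fun_prop) (by fun_prop) (fun d hd => ?_) ξ)
  choose y e he h2 h3 h4 using fun n : ℕ => hy d hd (1 / ((n : ℝ) + 1)) Nat.one_div_pos_of_nat
  have h0 := tendsto_one_div_add_atTop_nhds_zero_nat (𝕜 := ℝ)
  let l := (atTop : Filter ℕ).curry (U : Filter ι)
  have h0' : Tendsto (fun p : ℕ × ι => 1 / ((p.1 : ℝ) + 1)) l (𝓝 0) :=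
    tendsto_curry (F := fun (n : ℕ) _ => 1 / ((n : ℝ) + 1)) (fun _ => tendsto_const_nhds) h0
  have h5 : Tendsto (fun n => w (e n)) atTop (𝓝 (Z (w d))) :=
    tendsto_iff_norm_sub_tendsto_zero.2 (squeeze_zero (fun _ => norm_nonneg _) h3 h0)
  have h6 : ∀ᶠ p : ℕ × ι in l, ‖A p.2 (w (e p.1)) - y p.1 (A p.2 (w d))‖ ≤ 1 / ((p.1 : ℝ) + 1) ∧
      ‖Y (y p.1 (A p.2 (w d))) - y p.1 (Y (A p.2 (w d)))‖ ≤ 1 / ((p.1 : ℝ) + 1) :=
    eventually_curry_iff.2 (Eventually.of_forall h4)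
  have hp : Tendsto (fun p : ℕ × ι => ‖A p.2 (w d)‖) l (𝓝 (κ * ‖w d‖)) :=
    tendsto_curry (F := fun _ i => ‖A i (w d)‖) (fun _ => hA d hd) tendsto_const_nhds
  have hq : Tendsto (fun p : ℕ × ι => ‖A p.2 (w (e p.1))‖) l (𝓝 (κ * ‖w d‖)) :=
    tendsto_curry (F := fun n i => ‖A i (w (e n))‖) (fun n => hA _ (he n))
      (hZ (w d) ▸ h5.norm.const_mul κ)
  have hqr : Tendsto (fun p : ℕ × ι => A p.2 (w (e p.1)) - y p.1 (A p.2 (w d))) l (𝓝 0) :=
    squeeze_zero_norm' (h6.mono fun _ h => h.1) h0'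
  have hc : Tendsto (fun p : ℕ × ι => Y (y p.1 (A p.2 (w d))) - y p.1 (Y (A p.2 (w d)))) l (𝓝 0) :=
    squeeze_zero_norm' (h6.mono fun _ h => h.2) h0'
  have hr : Tendsto (fun p : ℕ × ι => ‖y p.1 (A p.2 (w d))‖) l (𝓝 (κ * ‖w d‖)) :=
    hq.congr_dist (squeeze_zero (fun _ => dist_nonneg) (fun _ => dist_norm_norm_le _ _)
      (by simpa using hqr.norm))
  have hs : Tendsto (fun p : ℕ × ι => A p.2 (w d) - adjoint (y p.1) (y p.1 (A p.2 (w d)))) l
      (𝓝 0) := by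
    refine squeeze_zero_norm (fun p => Real.le_sqrt_of_sq_le ?_)
      (by simpa using ((hp.pow 2).sub (hr.pow 2)).sqrt)
    have h7 := pow_le_pow_left₀ (norm_nonneg _) ((adjoint (y p.1)).le_of_opNorm_le
      ((LinearIsometryEquiv.norm_map _ _).trans_le (h2 p.1)) (y p.1 (A p.2 (w d)))) 2
    rw [@norm_sub_sq ℂ, adjoint_inner_right, inner_self_eq_norm_sq]
    linarith
  have h8 := (((tendsto_inner_zero hqr hq Y).1.add (tendsto_inner_zero hqr hr Y).2).add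
    (tendsto_inner_zero hc hr 1).2).sub (tendsto_inner_zero hs hp Y).1
  have h9 := (tendsto_curry (fun n => h1 _ (he n) _ (he n))
    (h5.inner ((X.continuous.tendsto _).comp h5))).sub (tendsto_curry (l := (atTop : Filter ℕ))
      (F := fun _ i => ⟪A i (w d), Y (A i (w d))⟫_ℂ) (fun _ => h1 d hd d hd) tendsto_const_nhds)
  rw [mul_ap, mul_ap, adjoint_inner_right, ← sub_eq_zero]
  have : NeBot l := ⟨fun e => (eventually_curry_iff.1 (show ∀ᶠ _ in l, False by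
    rw [e]; exact eventually_bot)).exists.elim fun _ h => h.exists.elim fun _ h => h⟩
  refine tendsto_nhds_unique h9
    (by simpa [inner_sub_left, inner_sub_right, adjoint_inner_left] using h8)

theorem sqi_of_dense {G H' : Type} [MeasurableSpace G] {ν : Measure G} [NormedAddCommGroup H']
    [InnerProductSpace ℂ H'] [CompleteSpace H'] (h : Gns D w) {T : G → H →L[ℂ] H'}
    (hm : ∀ ξ, AEStronglyMeasurable (fun x => T x ξ) ν)
    (e : ∀ d ∈ D, ∫⁻ x, ‖T x (w d)‖ₑ ^ 2 ∂ν = ‖w d‖ₑ ^ 2) (ξ η : H) :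
    ∫ x, ⟪T x ξ, T x η⟫_ℂ ∂ν = ⟪ξ, η⟫_ℂ := by
  have h1 : SqI ν T 1 := ⟨hm, zero_le_one, h.ind (isClosed_of_closure_subset fun ξ hξ => ?_)
    fun d hd => by simp [e d hd]⟩
  · have h2 : ∀ ξ, ‖col ν T ξ‖ = ‖ξ‖ := h.fext (by fun_prop) (by fun_prop) fun d hd =>
      norm_of_enorm_sq ((h1.enorm_col _).trans (e d hd))
    rw [← h1.inner_gram h1, inner_gram']
    exact (LinearIsometry.mk (col ν T).toLinearMap h2).inner_map_map ξ η
  · obtain ⟨u, hu, hl⟩ := mem_closure_iff_seq_limit.1 hξ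
    have h3 : ∀ {f : ℕ → H'} {a : H'}, Tendsto f atTop (𝓝 a) →
        Tendsto (fun n => ‖f n‖ₑ ^ 2) atTop (𝓝 (‖a‖ₑ ^ 2)) := fun h =>
      ENNReal.Tendsto.pow h.enorm
    calc _ = ∫⁻ x, liminf (fun n => ‖T x (u n)‖ₑ ^ 2) atTop ∂ν := lintegral_congr fun x =>
          (h3 (((T x).continuous.tendsto _).comp hl)).liminf_eq.symm
      _ ≤ liminf (fun n => ∫⁻ x, ‖T x (u n)‖ₑ ^ 2 ∂ν) atTop :=
          lintegral_liminf_le' fun n => (hm _).enorm.pow_const 2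
      _ ≤ liminf (fun n => ‖u n‖ₑ ^ 2) atTop :=
          liminf_le_liminf (Eventually.of_forall fun n => by simpa using hu n)
      _ = _ := by rw [(ENNReal.Tendsto.pow hl.enorm).liminf_eq]; simp

end Vale.Agent.P092ES
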